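import Crest.Agent.H3Q.Model

/-! The universal algebra and its rank condition. -/

namespace Crest.Agent.H3Q
open Finset ContinuousLinearMap BoundedContinuousFunction TopologicalSpace
open scoped InnerProductSpace

/-- the value of a word -/
def ev {σ A : Type*} [Monoid A] [Star A] (x : σ → A) (w : List (σ × Bool)) : A :=
  (w.map (lt x)).prod

lemma adj_span {σ A : Type*} [Ring A] [StarRing A] [Algebra ℂ A] [StarModule ℂ A] (x : σ → A) :
    (StarAlgebra.adjoin ℂ (Set.range x) : Set A) ⊆ Submodule.span ℂ (Set.range (ev x)) := by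
  intro y hy
  have : y ∈ Subalgebra.toSubmodule (Algebra.adjoin ℂ (Set.range x ∪ star (Set.range x))) := hy
  rw [Algebra.adjoin_eq_span] at this
  refine Submodule.span_mono (fun a ha => ?_) this
  induction ha using Submonoid.closure_induction with
  | mem a ha =>
    rcases ha with ⟨i, rfl⟩ | ⟨i, hi⟩
    · exact ⟨[(i, false)], by simp [ev, lt]⟩
    · exact ⟨[(i, true)], by simp [ev, lt, hi]⟩
  | one => exact ⟨[], rfl⟩
  | mul a b _ _ ha hb =>
    obtain ⟨v, rfl⟩ := ha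
    obtain ⟨w, rfl⟩ := hb
    exact ⟨v ++ w, by simp [ev]⟩

variable {σ : Type} [Fintype σ] [DecidableEq σ]

section
variable {H : Type} [NormedAddCommGroup H] [InnerProductSpace ℂ H] [CompleteSpace H]

omit [CompleteSpace H] in
lemma Rels.norm_le {x : σ → H →L[ℂ] H} (h : Rels x) (i : σ) : ‖x i‖ ≤ 5 / 2 :=
  opNorm_le_bound _ (by norm_num) fun ψ => by
    have := h.1 (Pi.single i ψ)
    simp only [Pi.single_apply, apply_ite, map_zero, sum_ite_eq', mem_univ, if_true, norm_zero,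
      ite_pow] at this
    simp at this
    exact (pow_le_pow_iff_left₀ (norm_nonneg _) (by positivity) two_ne_zero).1 (by linarith)

omit [DecidableEq σ] in
lemma Rels.norm_row {x : σ → H →L[ℂ] H} (h : Rels x) : ‖∑ i, x i * star (x i)‖ ≤ 25 / 4 :=
  opNorm_le_bound _ (by norm_num) fun ψ => by
    have h1 := h.1 fun i => star (x i) ψ
    have h2 : ∑ i, ‖star (x i) ψ‖ ^ 2 ≤ ‖∑ i, x i (star (x i) ψ)‖ * ‖ψ‖ := by
      refine le_trans (le_of_eq ?_) (re_inner_le_norm (𝕜 := ℂ) _ _)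
      simp only [sum_inner, map_sum, star_eq_adjoint, ← adjoint_inner_right (x _),
        inner_self_eq_norm_sq]
    simp only [ContinuousLinearMap.sum_apply, ContinuousLinearMap.mul_apply]
    by_contra! h3
    nlinarith [norm_nonneg ψ]

lemma Rels.norm_col {x : σ → H →L[ℂ] H} (h : Rels x) :
    ‖algebraMap ℝ _ (25 / 4 * Fintype.card σ) - ∑ i, star (x i) * x i‖ ≤
      25 / 4 * Fintype.card σ - (Fintype.card σ - 1) / 2 := by
  have h0 : (0 : ℝ) ≤ Fintype.card σ := Nat.cast_nonneg _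
  have h1 : ∑ i, star (x i) * x i ≤ algebraMap ℝ _ (25 / 4 * Fintype.card σ) := by
    refine (CStarAlgebra.norm_le_iff_le_algebraMap _ (by positivity)
      (sum_nonneg fun i _ => star_mul_self_nonneg _)).1 ((norm_sum_le _ _).trans ?_)
    refine (sum_le_sum fun i _ => ?_).trans_eq (by simp [mul_comm] : ∑ _i : σ, (25 / 4 : ℝ) = _)
    rw [CStarRing.norm_star_mul_self]; nlinarith [h.norm_le i, norm_nonneg (x i)]
  rw [CStarAlgebra.norm_le_iff_le_algebraMap _ (by linarith) (sub_nonneg.2 h1), map_sub]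
  refine sub_le_sub_left ?_ _
  rw [le_def, isPositive_def']
  refine ⟨(isSelfAdjoint_sum _ fun i _ => .star_mul_self _).sub
    (.algebraMap _ (.all _)), fun ψ => ?_⟩
  have := h.2 ψ
  have e : ∀ t : ℝ, RCLike.re ⟪t • ψ, ψ⟫_ℂ = t * ‖ψ‖ ^ 2 := fun t => by
    rw [← Complex.coe_smul, inner_smul_left, ← inner_self_eq_norm_sq (𝕜 := ℂ)]; simp
  simp only [reApplyInnerSelf_apply, ContinuousLinearMap.sub_apply, inner_sub_left, map_sub,
    ContinuousLinearMap.sum_apply, ContinuousLinearMap.mul_apply, sum_inner, map_sum, star_eq_adjoint,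
    adjoint_inner_left, inner_self_eq_norm_sq, Algebra.algebraMap_eq_smul_one,
    ContinuousLinearMap.smul_apply, ContinuousLinearMap.one_apply, e]
  linarith

end

section
variable {A : Type} [CStarAlgebra A] (gen : σ → A)

omit [Fintype σ] [DecidableEq σ] in
lemma map_ev {B : Type} [CStarAlgebra B] (ρ : A →⋆ₐ[ℂ] B) (w : List (σ × Bool)) :
    ρ (ev gen w) = ev (fun i => ρ (gen i)) w := by
  rw [ev, map_list_prod, List.map_map]
  congr 2
  ext1 ⟨i, _ | _⟩ <;> simp [lt, map_star]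

/-- the algebra -/
noncomputable abbrev BB : StarSubalgebra ℂ A :=
  (StarAlgebra.adjoin ℂ (Set.range gen)).topologicalClosure

instance : IsClosed (BB gen : Set A) := StarSubalgebra.isClosed_topologicalClosure _

omit [DecidableEq σ] in
lemma separable_BB : SeparableSpace (BB gen) :=
  (((Set.countable_range (ev gen)).isSeparable.span (R := ℂ)).mono
    (adj_span gen)).closure.separableSpace

theorem rank_BB [Nonempty σ] (hgen : ∀ x : σ → HH →L[ℂ] HH, Rels x →
    ∃ ρ : A →⋆ₐ[ℂ] (HH →L[ℂ] HH), (fun i => ρ (gen i)) = x) : RankCondition (BB gen) := by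
  refine rankCondition_iff_matrix.2 fun n m f g hgf => ?_
  by_contra! hnm
  set G := ∑ j, ∑ r, ‖g j r‖ with hG
  have hG0 : 0 ≤ G := by positivity
  have hy : ∀ r j, ∃ c : List (σ × Bool) →₀ ℂ,
      ‖(f r j : A) - c.sum fun w a => a • ev gen w‖ < 1 / (G + 1) := fun r j => by
    obtain ⟨y, hy, h⟩ := Metric.mem_closure_iff.1 (f r j).2 (1 / (G + 1)) (by positivity)
    obtain ⟨c, rfl⟩ := Finsupp.mem_span_range_iff_exists_finsupp.1 (adj_span gen hy)
    exact ⟨c, by rwa [← dist_eq_norm]⟩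
  choose c hc using hy
  obtain ⟨d, hd⟩ : ∃ d, ∀ r j, ∀ w ∈ (c r j).support, w.length ≤ d :=
    ⟨univ.sup fun p : Fin n × Fin m => (c p.1 p.2).support.sup List.length, fun r j w hw =>
      (le_sup hw).trans (le_sup (f := fun p : Fin n × Fin m => (c p.1 p.2).support.sup List.length)
        (mem_univ (r, j)))⟩
  let W := {w : List (σ × Bool) // w.length ≤ d}
  haveI : Finite W := (List.finite_length_le _ d).to_subtype
  haveI := Fintype.ofFinite W
  let E := ({q : (σ × Bool) × List (σ × Bool) // (q.1 :: q.2).length ≤ d} × Fin m) ⊕ Fin n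
  let e : E → W × Fin m := Sum.elim (fun q => (⟨_, q.1.2⟩, q.2))
    fun r => (⟨[], Nat.zero_le _⟩, r.castLE hnm.le)
  have he : Function.Injective e := by
    rintro (⟨⟨⟨a, b⟩, h⟩, j⟩ | r) (⟨⟨⟨a', b'⟩, h'⟩, j'⟩ | r') h <;>
      simp_all [e, W]
  haveI := Finite.of_injective e he
  haveI := Fintype.ofFinite E
  obtain ⟨x, hx, ξ, h0, hk, hl⟩ := model (σ := σ) (ι := W × Fin m) (Fintype.card_lt_of_injective_of_notMem e he
      (b := (⟨[], Nat.zero_le _⟩, ⟨n, hnm⟩)) (by
        rintro ⟨⟨⟨⟨a, b⟩, h⟩, j⟩ | r, h⟩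
        · simp [e, W] at h
        · simpa [e, Fin.ext_iff, r.2.ne] using h))
    (Sum.elim (fun q => Pi.single (none, e (.inl q)) 1 -
        Pi.single (some q.1.1.1, (⟨q.1.1.2, Nat.le_of_succ_le q.1.2⟩ : W), q.2) 1)
      fun r p => if p.1 = none then c r p.2.2 p.2.1 else 0)
  let η := fun j => ξ (none, ⟨[], Nat.zero_le _⟩, j)
  have hw : ∀ w h j, ξ (none, ⟨w, h⟩, j) = ev x w (η j) := fun w h j => by
    induction w with
    | nil => rfl
    | cons a b ih =>
      have := hk (.inl (⟨(a, b), h⟩, j))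
      simp only [Sum.elim_inl, Pi.sub_apply, sub_smul, sum_sub_distrib, Pi.single_apply, ite_smul,
        one_smul, zero_smul, sum_ite_eq', mem_univ, if_true, sub_eq_zero, hl, ih] at this
      exact this
  obtain ⟨ρ, hρx⟩ := hgen x hx
  have hρ : ∀ a, ‖ρ a‖ ≤ ‖a‖ := NonUnitalStarAlgHom.norm_apply_le ρ
  have h1 : ∀ r, ∑ k, ρ ((c r k).sum fun w a => a • ev gen w) (η k) = 0 := fun r => by
    have := hk (.inr r)
    simp only [Sum.elim_inr, Fintype.sum_prod_type, Fintype.sum_option, if_true, reduceCtorEq,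
      if_false, zero_smul, sum_const_zero, add_zero] at this
    rw [← this, sum_comm]
    refine sum_congr rfl fun k _ => ?_
    rw [Finsupp.sum_of_support_subset _ (s := univ.map (.subtype fun w => w.length ≤ d))
      (fun w hw => mem_map.2 ⟨⟨w, hd r k w hw⟩, mem_univ _, rfl⟩) _ (by simp), sum_map, map_sum,
      ContinuousLinearMap.sum_apply]
    refine sum_congr rfl fun w _ => ?_
    rw [map_smul, map_ev, hρx, hw w.1 w.2]; rfl
  have h2 : ∀ j, ‖η j‖ ≤ ∑ r, ‖g j r‖ * (1 / (G + 1) * ∑ k, ‖η k‖) := fun j => by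
    have e1 : η j = ∑ r, ρ (g j r) (∑ k, ρ (f r k) (η k)) := by
      simp only [map_sum]
      rw [sum_comm]
      have : ∀ k, ∑ r, ρ (g j r) (ρ (f r k) (η k)) = if j = k then η k else 0 := fun k => by
        have := congrArg (fun a : BB gen => ρ a (η k)) (congrFun₂ hgf j k)
        simpa [Matrix.mul_apply, Matrix.one_apply, apply_ite, ite_apply] using this
      simp [this]
    rw [e1]
    refine (norm_sum_le _ _).trans (sum_le_sum fun r _ => (le_opNorm _ _).trans ?_)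
    refine mul_le_mul (hρ _) ?_ (norm_nonneg _) (norm_nonneg _)
    rw [← sub_zero (∑ k, _), ← h1 r, ← sum_sub_distrib, mul_sum]
    refine (norm_sum_le _ _).trans (sum_le_sum fun k _ => ?_)
    rw [← ContinuousLinearMap.sub_apply, ← map_sub]
    exact (le_opNorm _ _).trans (mul_le_mul_of_nonneg_right ((hρ _).trans (hc r k).le)
      (norm_nonneg _))
  have h3 := sum_le_sum fun j (_ : j ∈ univ) => h2 j
  simp only [← sum_mul, ← hG] at h3
  have h4 : ∑ k, ‖η k‖ = 0 := by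
    have := sum_nonneg fun k (_ : k ∈ univ) => norm_nonneg (η k)
    rw [one_div_mul_eq_div, ← mul_div_assoc, le_div_iff₀ (by positivity)] at h3
    nlinarith
  have h5 : ∀ k, η k = 0 := fun k =>
    norm_eq_zero.1 ((sum_eq_zero_iff_of_nonneg fun _ _ => norm_nonneg _).1 h4 k (mem_univ _))
  refine h0 (funext ?_)
  rintro ⟨_ | l, ⟨w, h⟩, j⟩ <;> simp [hl, hw, h5]

lemma pack [Nonempty σ] (hgen : ∀ x : σ → HH →L[ℂ] HH, Rels x →
    ∃ ρ : A →⋆ₐ[ℂ] (HH →L[ℂ] HH), (fun i => ρ (gen i)) = x) {a b c t : ℝ}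
    (h1 : ∀ i, ‖gen i‖ ≤ a) (h2 : ‖∑ i, gen i * star (gen i)‖ ≤ b)
    (h3 : ‖algebraMap ℝ _ t - ∑ i, star (gen i) * gen i‖ ≤ c) :
    ∃ (B : Type) (_ : CStarAlgebra B), SeparableSpace B ∧ RankCondition B ∧ ∃ x : σ → B,
      (∀ i, ‖x i‖ ≤ a) ∧ ‖∑ i, x i * star (x i)‖ ≤ b ∧
      ‖algebraMap ℝ _ t - ∑ i, star (x i) * x i‖ ≤ c := by
  refine ⟨BB gen, inferInstance, separable_BB _, rank_BB _ hgen, fun i => ⟨gen i,
    StarSubalgebra.le_topologicalClosure _ (StarAlgebra.subset_adjoin _ _ ⟨i, rfl⟩)⟩, h1,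
    le_of_eq_of_le ?_ h2, le_of_eq_of_le ?_ h3⟩
  · change ‖(BB gen).subtype _‖ = _
    rw [map_sum]; rfl
  · change ‖(BB gen).subtype _‖ = _
    rw [map_sub, map_sum]; rfl

end

variable (σ) in
/-- the ambient algebra -/
abbrev AA := {x : σ → HH →L[ℂ] HH // Rels x} →ᵇ (HH →L[ℂ] HH)

/-- the generators -/
noncomputable def gen (i : σ) : AA σ :=
  ofNormedAddCommGroup (fun x => x.1 i) ((continuous_apply i).comp continuous_subtype_val) _
    fun x => x.2.norm_le i

/-- evaluation -/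
noncomputable def evl (x : {x : σ → HH →L[ℂ] HH // Rels x}) : AA σ →⋆ₐ[ℂ] (HH →L[ℂ] HH) where
  toFun a := a x
  map_one' := rfl
  map_mul' _ _ := rfl
  map_zero' := rfl
  map_add' _ _ := rfl
  commutes' _ := rfl
  map_star' _ := rfl

lemma norm_AA (a : AA σ) {c : ℝ} (hc : 0 ≤ c) (h : ∀ x, ‖evl x a‖ ≤ c) : ‖a‖ ≤ c :=
  (norm_le hc).2 h

theorem exists_alg (σ : Type) [Fintype σ] [DecidableEq σ] [Nonempty σ] :
    ∃ (B : Type) (_ : CStarAlgebra B), SeparableSpace B ∧ RankCondition B ∧ ∃ x : σ → B,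
      (∀ i, ‖x i‖ ≤ 5 / 2) ∧ ‖∑ i, x i * star (x i)‖ ≤ 25 / 4 ∧
      ‖algebraMap ℝ _ (25 / 4 * Fintype.card σ) - ∑ i, star (x i) * x i‖ ≤
        25 / 4 * Fintype.card σ - (Fintype.card σ - 1) / 2 := by
  have h0 : (0 : ℝ) ≤ Fintype.card σ := Nat.cast_nonneg _
  refine pack (A := AA σ) gen (fun x hx => ⟨evl ⟨x, hx⟩, rfl⟩)
    (fun i => (norm_le (by norm_num)).2 fun x => x.2.norm_le i)
    (norm_AA _ (by norm_num) fun x => ?_) (norm_AA _ (by linarith) fun x => ?_)
  · refine le_of_eq_of_le ?_ x.2.norm_row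
    rw [map_sum]; rfl
  · refine le_of_eq_of_le ?_ x.2.norm_col
    rw [map_sub, map_sum, IsScalarTower.algebraMap_apply ℝ ℂ, AlgHomClass.commutes,
      ← IsScalarTower.algebraMap_apply]
    rfl

end Crest.Agent.H3Q
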