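import Mathlib

/-! Completing partially defined operators. -/

namespace Crest.Agent.H3Q
open Finset ContinuousLinearMap
open scoped InnerProductSpace

variable {σ : Type*} [Fintype σ] [DecidableEq σ] {H : Type*} [NormedAddCommGroup H]
  [InnerProductSpace ℂ H] [CompleteSpace H]

omit [DecidableEq σ] in
lemma row_of_col (y : σ → H →L[ℂ] H) (h : ∀ φ, ∑ i, ‖y i φ‖ ^ 2 ≤ ‖φ‖ ^ 2) (q : σ → H) :
    ‖∑ i, adjoint (y i) (q i)‖ ^ 2 ≤ ∑ i, ‖q i‖ ^ 2 := by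
  set w := ∑ i, adjoint (y i) (q i) with hw
  have e : ‖w‖ ^ 2 = ∑ i, RCLike.re ⟪q i, y i w⟫_ℂ := by
    rw [← inner_self_eq_norm_sq (𝕜 := ℂ), ← map_sum]
    nth_rw 1 [hw]
    simp only [sum_inner, adjoint_inner_left]
  have : ∑ i, RCLike.re ⟪q i, y i w⟫_ℂ ≤ ∑ i, (‖q i‖ ^ 2 + ‖y i w‖ ^ 2) / 2 :=
    sum_le_sum fun i _ => (re_inner_le_norm _ _).trans (by nlinarith [sq_nonneg (‖q i‖ - ‖y i w‖)])
  rw [← sum_div, sum_add_distrib] at this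
  linarith [h w]

omit [CompleteSpace H] in
lemma pyth {a b : H} (h : ⟪a, b⟫_ℂ = 0) : ‖a + b‖ ^ 2 = ‖a‖ ^ 2 + ‖b‖ ^ 2 := by
  simpa [sq] using norm_add_sq_eq_norm_sq_add_norm_sq_of_inner_eq_zero a b h

lemma par {H : Type*} [NormedAddCommGroup H] (a b : H) : ‖a + b‖ ^ 2 ≤ 2 * ‖a‖ ^ 2 + 2 * ‖b‖ ^ 2 := by
  nlinarith [norm_add_le a b, norm_nonneg (a + b), sq_nonneg (‖a‖ - ‖b‖)]

theorem completion {V : Type*} [NormedAddCommGroup V] [NormedSpace ℂ V] [FiniteDimensional ℂ V]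
    (s : σ → H →L[ℂ] H) (hs : ∀ i j ψ φ, ⟪s i ψ, s j φ⟫_ℂ = if i = j then ⟪ψ, φ⟫_ℂ else 0)
    (X : V →ₗ[ℂ] H) (Y Z : σ → V →ₗ[ℂ] H) (hX : ∀ i ψ c, ⟪X c, s i ψ⟫_ℂ = 0)
    (hY : ∀ i j ψ c, ⟪Y j c, s i ψ⟫_ℂ = 0)
    (h1 : ∀ c, (Fintype.card σ - 1) * ‖X c‖ ^ 2 ≤ ∑ i, ‖Y i c‖ ^ 2)
    (h2 : ∀ c, ∑ i, ‖Z i c‖ ^ 2 ≤ ‖X c‖ ^ 2)
    (h3 : ∀ c : σ → V, ‖∑ i, Y i (c i)‖ ^ 2 ≤ ∑ i, ‖X (c i)‖ ^ 2)
    (h4 : ∀ i c d, ⟪X d, Y i c⟫_ℂ = ⟪Z i d, X c⟫_ℂ) :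
    ∃ x : σ → H →L[ℂ] H, (∀ i c, x i (X c) = Y i c) ∧ (∀ i c, adjoint (x i) (X c) = Z i c) ∧
      (∀ ψ : σ → H, ‖∑ i, x i (ψ i)‖ ^ 2 ≤ 25 / 4 * ∑ i, ‖ψ i‖ ^ 2) ∧
      ∀ ψ, (Fintype.card σ - 1) / 2 * ‖ψ‖ ^ 2 ≤ ∑ i, ‖x i ψ‖ ^ 2 := by
  let K := LinearMap.range X
  obtain ⟨g0, hg0⟩ := X.rangeRestrict.exists_rightInverse_of_surjective X.range_rangeRestrict
  let g : H →L[ℂ] V := LinearMap.toContinuousLinearMap g0 ∘L K.orthogonalProjectionOnto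
  have hg : ∀ ψ, X (g ψ) = K.starProjection ψ := fun ψ =>
    congrArg Subtype.val (LinearMap.congr_fun hg0 (K.orthogonalProjectionOnto ψ))
  set Q := Kᗮ.starProjection with hQ
  have hPQ : ∀ ψ, X (g ψ) + Q ψ = ψ := fun ψ => by
    rw [hg]; exact K.starProjection_add_starProjection_orthogonal ψ
  have hn : ∀ ψ, ‖ψ‖ ^ 2 = ‖X (g ψ)‖ ^ 2 + ‖Q ψ‖ ^ 2 := fun ψ => by
    rw [hg]; exact Submodule.norm_sq_eq_add_norm_sq_starProjection ψ K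
  have hQX : ∀ c, Q (X c) = 0 := fun c => K.starProjection_orthogonal_apply_eq_zero ⟨c, rfl⟩
  have hgX : ∀ c, X (g (X c) - c) = 0 := fun c => by
    have := hPQ (X c); rw [hQX, add_zero] at this; rw [map_sub, this, sub_self]
  have hY0 : ∀ i c, X c = 0 → Y i c = 0 := fun i c hc => by
    have := h3 (Pi.single i c)
    simpa [Pi.single_apply, apply_ite, hc] using this
  have hZ0 : ∀ i c, X c = 0 → Z i c = 0 := fun i c hc => by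
    have := (single_le_sum (f := fun i => ‖Z i c‖ ^ 2) (fun _ _ => by positivity)
      (mem_univ i)).trans (h2 c)
    simpa [hc] using this
  let C : σ → H →L[ℂ] H := fun i => LinearMap.toContinuousLinearMap (Z i) ∘L g
  have hC := row_of_col C fun φ => (h2 (g φ)).trans (by nlinarith [hn φ])
  have hCs : ∀ i j q ψ, ⟪adjoint (C i) q, s j ψ⟫_ℂ = 0 := fun i j q ψ => by
    rw [adjoint_inner_left]
    have : C i (s j ψ) = 0 := hZ0 _ (g (s j ψ)) (by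
      rw [hg, Submodule.starProjection_apply_eq_zero_iff]
      rintro _ ⟨c, rfl⟩; exact hX j ψ c)
    simp [this]
  have hss : ∀ ψ : σ → H, ‖∑ i, s i (ψ i)‖ ^ 2 = ∑ i, ‖ψ i‖ ^ 2 := fun ψ => by
    simp only [← inner_self_eq_norm_sq (𝕜 := ℂ), sum_inner, inner_sum, hs, ← map_sum]
    simp
  have hμ : ∀ w : H, ‖(5 / 4 : ℂ) • w‖ ^ 2 = 25 / 16 * ‖w‖ ^ 2 := fun w => by
    rw [norm_smul, mul_pow]; norm_num
  let x : σ → H →L[ℂ] H := fun i => LinearMap.toContinuousLinearMap (Y i) ∘L g +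
    adjoint (C i) ∘L Q + (5 / 4 : ℂ) • (s i ∘L Q)
  have hx : ∀ i ψ, x i ψ = Y i (g ψ) + adjoint (C i) (Q ψ) + (5 / 4 : ℂ) • s i (Q ψ) :=
    fun _ _ => rfl
  refine ⟨x, fun i c => ?_, fun i c => ext_inner_right ℂ fun ψ => ?_, fun ψ => ?_, fun ψ => ?_⟩
  · simpa [hx, hQX, sub_eq_zero] using hY0 i _ (hgX c)
  · have : C i (X c) = Z i c := by simpa [C, sub_eq_zero] using hZ0 i _ (hgX c)
    rw [adjoint_inner_left, hx, inner_add_right, inner_add_right, h4, adjoint_inner_right, this,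
      inner_smul_right, hX, ← inner_add_right, hPQ]
    simp
  · simp only [hx, sum_add_distrib, ← smul_sum]
    rw [add_right_comm]
    refine (par _ _).trans ?_
    rw [pyth (by simp [inner_smul_right, sum_inner, inner_sum, hY]), hμ, hss]
    have e : ∑ i, ‖ψ i‖ ^ 2 = ∑ i, ‖X (g (ψ i))‖ ^ 2 + ∑ i, ‖Q (ψ i)‖ ^ 2 := by
      rw [← sum_add_distrib]; exact sum_congr rfl fun i _ => hn _
    have := h3 fun i => g (ψ i)
    have := hC fun i => Q (ψ i)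
    have := sum_nonneg fun i (_ : i ∈ univ) => sq_nonneg ‖X (g (ψ i))‖
    have := sum_nonneg fun i (_ : i ∈ univ) => sq_nonneg ‖Q (ψ i)‖
    linarith
  · have key : ∀ i, ‖Y i (g ψ)‖ ^ 2 / 2 + ‖Q ψ‖ ^ 2 / 2 ≤ ‖x i ψ‖ ^ 2 := fun i => by
      rw [hx, pyth (by simp [inner_smul_right, inner_add_left, hY, hCs]), hμ]
      have a1 := par (Y i (g ψ) + adjoint (C i) (Q ψ)) (-adjoint (C i) (Q ψ))
      have a2 := hC (Pi.single i (Q ψ))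
      have a3 := hss (Pi.single i (Q ψ))
      simp only [Pi.single_apply, apply_ite, map_zero, sum_ite_eq', mem_univ, if_true, norm_zero,
        ite_pow] at a2 a3
      rw [add_neg_cancel_right, norm_neg] at a1
      simp at a2 a3
      rw [a3]
      nlinarith [sq_nonneg ‖Q ψ‖]
    have := sum_le_sum fun i (_ : i ∈ univ) => key i
    rw [sum_add_distrib, ← sum_div, sum_const, card_univ, nsmul_eq_mul] at this
    have := h1 (g ψ)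
    rw [hn ψ]
    nlinarith [sq_nonneg ‖Q ψ‖]

end Crest.Agent.H3Q
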