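import Crest.Agent.H3Q.Sep

/-! The inertia count. -/

namespace Crest.Agent.H3Q
open Finset Matrix
open scoped ComplexOrder MatrixOrder

lemma diag2 {ι : Type*} [Fintype ι] [DecidableEq ι] {M Φ : Matrix ι ι ℂ} (hM : M.PosDef)
    (hΦ : Φ.IsHermitian) : ∃ (R : Matrix ι ι ℂ) (D : ι → ℝ),
      Rᴴ * M * R = 1 ∧ Rᴴ * Φ * R = diagonal fun j => (D j : ℂ) := by
  obtain ⟨B, hB⟩ := exists_sqrt hM.posSemidef
  have hu : IsUnit B.det := by
    have := (isUnit_iff_isUnit_det _).1 hM.isUnit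
    rw [hB, det_mul] at this
    exact isUnit_of_mul_isUnit_right this
  have h : (B⁻¹ᴴ * Φ * B⁻¹).IsHermitian := isHermitian_conjTranspose_mul_mul _ hΦ
  have h1 := Unitary.coe_star_mul_self h.eigenvectorUnitary
  have h2 := h.conjStarAlgAut_star_eigenvectorUnitary
  rw [Unitary.conjStarAlgAut_apply] at h2
  generalize h.eigenvectorUnitary = U at h1 h2
  refine ⟨B⁻¹ * U, h.eigenvalues, ?_, ?_⟩
  · have e : B * B⁻¹ = 1 := mul_nonsing_inv _ hu
    have e2 : B⁻¹ᴴ * Bᴴ = 1 := by rw [← conjTranspose_mul, e, conjTranspose_one]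
    rw [hB, conjTranspose_mul]
    simp only [Matrix.mul_assoc]
    rw [← Matrix.mul_assoc B, e, Matrix.one_mul, ← Matrix.mul_assoc B⁻¹ᴴ, e2, Matrix.one_mul]
    exact h1
  · refine Eq.trans ?_ h2
    simp [Matrix.mul_assoc, star_eq_conjTranspose]

lemma sq_diag {ι : Type*} [Fintype ι] [DecidableEq ι] (D : ι → ℝ) (w : ι → ℂ) :
    sq (diagonal fun j => (D j : ℂ)) w w = ∑ j, D j * ‖w j‖ ^ 2 := by
  simp only [sq, dotProduct, mulVec_diagonal, Complex.re_sum]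
  refine sum_congr rfl fun j _ => ?_
  simp [Complex.sq_norm, Complex.normSq_apply]; ring

lemma count {σ ι E : Type*} [Fintype σ] [Fintype ι] [Fintype E] [DecidableEq σ] [DecidableEq ι]
    (hE : Fintype.card E < Fintype.card ι) {M : Matrix ι ι ℂ} (hM : M.PosDef)
    {Ψ : Matrix (σ × ι) (σ × ι) ℂ} (hΨ : Ψ.PosSemidef)
    (L : ((ι → ℂ) × (σ × ι → ℂ)) →ₗ[ℂ] (E → ℂ)) :
    ∃ u0 u, (u0, u) ≠ 0 ∧ L (u0, u) = 0 ∧
      sq Ψ u u ≤ ∑ i, sq M (u ∘ Prod.mk i) (u ∘ Prod.mk i) ∧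
      (Fintype.card σ - 1) * sq M u0 u0 ≤
        ∑ i, sq (Ψ.submatrix (Prod.mk i) (Prod.mk i)) u0 u0 := by
  have hΦ : (∑ i, Ψ.submatrix (Prod.mk i) (Prod.mk i)).PosSemidef :=
    posSemidef_sum _ fun i _ => hΨ.submatrix _
  obtain ⟨R, D, hR, hD⟩ := diag2 hM hΦ.1
  set a : ℝ := (Fintype.card σ : ℝ) - 1 with ha
  let J := {j // D j < a}
  let C : Matrix (σ × ι) (σ × J) ℂ := fun p q => if p.1 = q.1 then R p.2 q.2 else 0
  have hΨ' := hΨ.conjTranspose_mul_mul_same C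
  obtain ⟨U, lam, hU, hl⟩ := diag2 PosDef.one hΨ'.1
  rw [Matrix.mul_one] at hU
  have hl0 : ∀ l, 0 ≤ lam l := fun l => by
    have := (hΨ'.conjTranspose_mul_mul_same U).diag_nonneg (i := l)
    rw [hl] at this; simpa using this
  have htr : ∑ l, lam l = ∑ j : J, D j := by
    have h1 := congrArg trace hl
    rw [trace_mul_cycle, mul_eq_one_comm.1 hU, Matrix.one_mul, trace_diagonal] at h1
    have h2 : ∀ i (j : J), (Cᴴ * Ψ * C) (i, j) (i, j) =
        (Rᴴ * Ψ.submatrix (Prod.mk i) (Prod.mk i) * R) j j := fun i j => by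
      simp [mul_apply, C, Fintype.sum_prod_type, apply_ite]
    have h3 : ∀ j, ∑ i, (Rᴴ * Ψ.submatrix (Prod.mk i) (Prod.mk i) * R) j j = D j := fun j => by
      rw [← Matrix.sum_apply, ← Matrix.sum_mul, ← Matrix.mul_sum, hD, diagonal_apply_eq]
    rw [trace, Fintype.sum_prod_type, sum_comm] at h1
    simp only [diag_apply, h2, h3] at h1
    exact_mod_cast h1.symm
  let Lc := {l // 1 < lam l}
  have hcard : (Fintype.card Lc : ℝ) ≤ a * Fintype.card J := by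
    calc (Fintype.card Lc : ℝ) = ∑ l with 1 < lam l, (1 : ℝ) := by
          simp [Lc, Fintype.card_subtype]
      _ ≤ ∑ l with 1 < lam l, lam l := sum_le_sum fun l hl => (mem_filter.1 hl).2.le
      _ ≤ ∑ l, lam l := sum_le_sum_of_subset_of_nonneg (filter_subset _ _) fun l _ _ => hl0 l
      _ ≤ ∑ j : J, a := htr ▸ sum_le_sum fun j _ => j.2.le
      _ = _ := by simp [mul_comm]
  let Λ : ((ι → ℂ) × (σ × J → ℂ)) →ₗ[ℂ] (J → ℂ) × (Lc → ℂ) × (E → ℂ) :=
    (LinearMap.funLeft ℂ ℂ Subtype.val ∘ₗ LinearMap.fst _ _ _).prod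
      ((LinearMap.funLeft ℂ ℂ Subtype.val ∘ₗ LinearMap.snd _ _ _).prod
        (L ∘ₗ (R.mulVecLin.prodMap (C * U).mulVecLin)))
  obtain ⟨⟨w0, w1⟩, hw, hw0⟩ := (Submodule.ne_bot_iff _).1 <|
    LinearMap.ker_ne_bot_of_finrank_lt (f := Λ) (by
      simp only [Module.finrank_prod, Module.finrank_fintype_fun_eq_card, Fintype.card_prod]
      have : (Fintype.card E : ℝ) < Fintype.card ι := by exact_mod_cast hE
      have h := congrArg (· * (Fintype.card J : ℝ)) ha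
      rify; linarith)
  have h1 : ∀ j : J, w0 j = 0 := congrFun (congrArg Prod.fst hw)
  have h2 : ∀ l : Lc, w1 l = 0 := congrFun (congrArg (·.2.1) hw)
  have h3 : L (R *ᵥ w0, (C * U) *ᵥ w1) = 0 := congrArg (·.2.2) hw
  have e0 : sq M (R *ᵥ w0) (R *ᵥ w0) = nsq w0 := by rw [← sq_mul, hR, sq_one]
  have e1 : ∑ i, sq M (((C * U) *ᵥ w1) ∘ Prod.mk i) (((C * U) *ᵥ w1) ∘ Prod.mk i) = nsq w1 := by
    have hC : ∀ i (y : σ × J → ℂ),
        (C *ᵥ y) ∘ Prod.mk i = R.submatrix id Subtype.val *ᵥ (y ∘ Prod.mk i) := fun i y => by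
      ext k; simp [mulVec, dotProduct, C, Fintype.sum_prod_type]; rfl
    have hR' : (R.submatrix id (Subtype.val : J → ι))ᴴ * M * R.submatrix id Subtype.val =
        (1 : Matrix J J ℂ) := by
      rw [← submatrix_one _ Subtype.val_injective, ← hR]; rfl
    simp only [← mulVec_mulVec, hC, ← sq_mul, hR', sq_one]
    rw [← sq_one w1, ← hU, ← Matrix.mul_one Uᴴ, sq_mul, sq_one, nsq, Fintype.sum_prod_type]
    rfl
  refine ⟨R *ᵥ w0, (C * U) *ᵥ w1, fun h => hw0 ?_, h3, ?_, ?_⟩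
  · rw [Prod.mk_eq_zero] at h ⊢
    rw [h.1] at e0
    rw [h.2] at e1
    constructor
    · by_contra h'; simpa [← e0, sq] using nsq_pos h'
    · by_contra h'; simpa [← e1, sq] using nsq_pos h'
  · rw [e1, ← sq_mul, conjTranspose_mul, show Uᴴ * Cᴴ * Ψ * (C * U) = Uᴴ * (Cᴴ * Ψ * C) * U by
      simp only [Matrix.mul_assoc], hl, sq_diag]
    refine sum_le_sum fun l _ => ?_
    by_cases h : 1 < lam l
    · have : w1 l = 0 := h2 ⟨l, h⟩
      simp [this]
    · exact mul_le_of_le_one_left (by positivity) (not_lt.1 h)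
  · rw [e0, ← sq_sum, ← sq_mul, hD, sq_diag, nsq, mul_sum]
    refine sum_le_sum fun j _ => ?_
    by_cases h : D j < a
    · have : w0 j = 0 := h1 ⟨j, h⟩
      simp [this]
    · exact mul_le_mul_of_nonneg_right (not_lt.1 h) (by positivity)

end Crest.Agent.H3Q
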