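import Crest.Agent.H3Q.Gen
import Crest.Agent.H3Q.Alg

/-! The defect of additivity. -/

namespace Crest.Agent.H3Q
open Finset Crest.OpAlg Matrix TopologicalSpace

section
variable {B : Type} [CStarAlgebra B] [PartialOrder B] [StarOrderedRing B]

/-- dyadic averages -/
noncomputable def avg (y : ZMod 32 → B) (t : ℕ) (j : ZMod 32) : B :=
  ((2 : ℝ) ^ t)⁻¹ • ∑ m ∈ range (2 ^ t), y (j + m)

omit [PartialOrder B] [StarOrderedRing B] in
lemma avg_succ (y : ZMod 32 → B) (t : ℕ) (j : ZMod 32) :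
    avg y t j + avg y t (j + 2 ^ t) = (2 : ℝ) • avg y (t + 1) j := by
  rw [avg, avg, avg, smul_smul, ← smul_add, pow_succ 2 t, pow_succ 2 t, mul_two (2 ^ t : ℕ),
    sum_range_add]
  congr 1
  · field_simp
  · simp [add_assoc]

omit [PartialOrder B] [StarOrderedRing B] in
lemma avg_five (y : ZMod 32 → B) (j : ZMod 32) : avg y 5 j = (32 : ℝ)⁻¹ • ∑ i, y i := by
  rw [avg, sum_range, ← Equiv.sum_comp (Equiv.addLeft j) y]
  congr 1
  norm_num

lemma avg_mem {y : ZMod 32 → B} (h : ∀ i, 0 ≤ y i ∧ y i ≤ 1) (t : ℕ) (j : ZMod 32) :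
    0 ≤ avg y t j ∧ avg y t j ≤ 1 := by
  refine ⟨smul_nonneg (by positivity) (sum_nonneg fun _ _ => (h _).1),
    (smul_le_smul_of_nonneg_left (sum_le_sum fun _ _ => (h _).2) (by positivity)).trans_eq ?_⟩
  rw [sum_const, card_range, ← Nat.cast_smul_eq_nsmul ℝ, smul_smul]
  simp

omit [PartialOrder B] [StarOrderedRing B] in
lemma r_smul {τ : B → ℂ} (hτ : IsOneQuasitrace τ) {h : B} (hh : IsSelfAdjoint h) (t : ℝ) :
    (τ (t • h)).re = t * (τ h).re := by
  rw [← Complex.coe_smul, q_smul hτ hh]; simp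

lemma r_ge {τ : B → ℂ} (hτ : IsOneQuasitrace τ) {h : B} {t : ℝ} (ht : t • (1 : B) ≤ h) :
    t * (τ 1).re ≤ (τ h).re := by
  have h0 := sub_nonneg.2 ht
  have := q_add hτ (.of_nonneg h0) ((IsSelfAdjoint.all t).smul (.one B))
    ((Commute.one_right _).smul_right t)
  obtain ⟨c, hc⟩ := CStarAlgebra.nonneg_iff_eq_star_mul_self.1 h0
  have h2 := (hτ.1 c).2.2
  rw [sub_add_cancel] at this
  rw [this, Complex.add_re, r_smul hτ (.one B), hc]; linarith

lemma tele {τ : B → ℂ} (hτ : IsOneQuasitrace τ) {y : ZMod 32 → B} (h : ∀ i, 0 ≤ y i ∧ y i ≤ 1)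
    {s : ℝ} (hs : s • (1 : B) ≤ ∑ i, y i) :
    2 * (s * (τ 1).re - ∑ j, (τ (y j)).re) ≤ ∑ t : Fin 5, ∑ j,
      (τ (avg y t j + avg y t (j + 2 ^ (t : ℕ))) - τ (avg y t j) -
        τ (avg y t (j + 2 ^ (t : ℕ)))).re := by
  have e : ∀ t : ℕ, ∑ j, (τ (avg y t j + avg y t (j + 2 ^ t)) - τ (avg y t j) -
      τ (avg y t (j + 2 ^ t))).re =
      2 * ∑ j, (τ (avg y (t + 1) j)).re - 2 * ∑ j, (τ (avg y t j)).re := fun t => by
    have := Equiv.sum_comp (Equiv.addRight ((2 : ZMod 32) ^ t)) fun j => (τ (avg y t j)).re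
    simp only [Equiv.coe_addRight] at this
    simp only [avg_succ, Complex.sub_re, sum_sub_distrib, this,
      r_smul hτ (.of_nonneg (avg_mem h _ _).1), ← mul_sum]
    ring
  have e0 : ∀ j, avg y 0 j = y j := fun j => by simp [avg]
  have e5 : ∑ j, (τ (avg y 5 j)).re = (τ (∑ i, y i)).re := by
    simp only [avg_five, r_smul hτ (.of_nonneg (sum_nonneg fun i _ => (h i).1)), sum_const,
      card_univ, ZMod.card, nsmul_eq_mul]
    ring
  have := r_ge hτ hs
  rw [Fin.sum_univ_eq_sum_range (fun t => ∑ j, (τ (avg y t j + avg y t (j + 2 ^ t)) -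
    τ (avg y t j) - τ (avg y t (j + 2 ^ t))).re)]
  simp only [e]
  rw [sum_range_sub fun t => 2 * ∑ j, (τ (avg y t j)).re]
  simp only [e0, e5]
  linarith

lemma diag_ok {I : Type} [Fintype I] [DecidableEq I] (d : I → B) (h : ∀ i, 0 ≤ d i ∧ d i ≤ 1) :
    (∃ x, CStarMatrix.ofMatrix (diagonal d) = star x * x) ∧
      ‖CStarMatrix.ofMatrix (diagonal d)‖ ≤ 1 := by
  have key : ∀ d : I → B, (∀ i, 0 ≤ d i) → ∃ x, CStarMatrix.ofMatrix (diagonal d) = star x * x :=
    fun d h => by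
      choose c hc using fun i => CStarAlgebra.nonneg_iff_eq_star_mul_self.1 (h i)
      refine ⟨CStarMatrix.ofMatrix (diagonal c), ?_⟩
      change diagonal d = (diagonal c)ᴴ * diagonal c
      rw [diagonal_conjTranspose, diagonal_mul_diagonal]
      exact congrArg _ (funext hc)
  obtain ⟨x, hx⟩ := key d fun i => (h i).1
  obtain ⟨y, hy⟩ := key (1 - d) fun i => sub_nonneg.2 (h i).2
  refine ⟨⟨x, hx⟩, (CStarAlgebra.norm_le_one_iff_of_nonneg _
    (hx ▸ star_mul_self_nonneg x)).2 (sub_nonneg.1 ((star_mul_self_nonneg y).trans_eq ?_))⟩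
  rw [← hy]
  change diagonal (1 - d) = (1 : Matrix I I B) - diagonal d
  rw [← diagonal_one, diagonal_sub]; rfl

lemma defect {x : ZMod 32 → B} (h1 : ∀ i, star (x i) * x i ≤ 1) (h2 : ∀ i, x i * star (x i) ≤ 1)
    (h3 : ∑ i, x i * star (x i) ≤ 1) (h4 : (62 / 25 : ℝ) • (1 : B) ≤ ∑ i, star (x i) * x i) :
    ∃ a b : Bool × Fin 5 × ZMod 32 → B, (∀ p, 0 ≤ a p ∧ a p ≤ 1) ∧ (∀ p, 0 ≤ b p ∧ b p ≤ 1) ∧
      ∀ τ : Matrix _ _ B → ℂ, IsOneQuasitrace τ → τ 1 = 1 →
        (1 : ℝ) / 144 ≤ (τ (diagonal a + diagonal b) - τ (diagonal a) - τ (diagonal b)).re := by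
  let y : Bool → ZMod 32 → B := fun s i => if s then 1 - x i * star (x i) else star (x i) * x i
  have hy : ∀ s i, 0 ≤ y s i ∧ y s i ≤ 1 := by
    rintro (_ | _) i
    · exact ⟨star_mul_self_nonneg _, h1 i⟩
    · exact ⟨sub_nonneg.2 (h2 i), sub_le_self _ (mul_star_self_nonneg _)⟩
  have ha := fun p : Bool × Fin 5 × ZMod 32 => avg_mem (hy p.1) p.2.1 p.2.2
  have hb := fun p : Bool × Fin 5 × ZMod 32 => avg_mem (hy p.1) p.2.1 (p.2.2 + 2 ^ (p.2.1 : ℕ))
  refine ⟨_, _, ha, hb, fun τ hτ hτ1 => ?_⟩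
  let ρ : B → ℂ := fun c => τ (single default default c)
  have hρ : IsOneQuasitrace ρ := q_comp hτ (corner default)
  have hd : ∀ d : Bool × Fin 5 × ZMod 32 → B, (∀ p, 0 ≤ d p) → τ (diagonal d) = ∑ p, ρ (d p) :=
    fun d h => by
      rw [q_diag hτ d fun p => .of_nonneg (h p)]
      refine sum_congr rfl fun p _ => ?_
      obtain ⟨c, hc⟩ := CStarAlgebra.nonneg_iff_eq_star_mul_self.1 (h p)
      rw [hc, q_swap hτ p default, (hρ.1 c).1]
  have r1 : (ρ 1).re = 1 / 320 := by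
    have := congrArg Complex.re (hτ1.symm.trans (q_one hτ default))
    simp only [Fintype.card_prod, Fintype.card_bool, Fintype.card_fin, ZMod.card] at this
    norm_num at this
    change 1 = 320 * (ρ 1).re at this
    linarith
  rw [diagonal_add, hd _ fun p => add_nonneg (ha p).1 (hb p).1, hd _ fun p => (ha p).1,
    hd _ fun p => (hb p).1, ← sum_sub_distrib, ← sum_sub_distrib, Complex.re_sum,
    Fintype.sum_prod_type, Fintype.sum_bool]
  simp only [Fintype.sum_prod_type]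
  have t1 := tele hρ (hy false) h4
  have t2 := tele hρ (hy true) (s := 31) (by
    simp only [y, if_true, sum_sub_distrib, sum_const, card_univ, ZMod.card]
    rw [le_sub_comm, ← Nat.cast_smul_eq_nsmul ℝ, ← sub_smul]
    norm_num [h3])
  have e : ∀ j, (ρ (y true j)).re = (ρ 1).re - (ρ (y false j)).re := fun j => by
    have := q_add hρ (.of_nonneg (hy true j).1) (.mul_star_self (x j))
      ((Commute.one_left _).sub_left (.refl _))
    simp only [y, if_true, sub_add_cancel, ← (hρ.1 _).1] at this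
    simp [y, this]
  simp only [e, sum_sub_distrib, sum_const, card_univ, ZMod.card, nsmul_eq_mul, r1] at t1 t2
  norm_num at t1 t2 ⊢
  linarith
end

theorem main : ∃ (A : Type) (_ : CStarAlgebra A), TopologicalSpace.SeparableSpace A ∧
      (∃ τ : A → ℂ, Crest.OpAlg.IsNormalizedTwoQuasitrace τ) ∧
      ∃ a b : A, (∃ x : A, a = star x * x) ∧ ‖a‖ ≤ 1 ∧ (∃ y : A, b = star y * y) ∧ ‖b‖ ≤ 1 ∧
        ∀ τ : A → ℂ, Crest.OpAlg.IsNormalizedTwoQuasitrace τ →
          (1 : ℝ) / 144 ≤ (τ (a + b) - τ a - τ b).re := by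
  obtain ⟨B, _, hsep, hr, x, h1, h2, h3⟩ := exists_alg (ZMod 32)
  letI := CStarAlgebra.spectralOrder B
  haveI := CStarAlgebra.spectralOrderedRing B
  have n1 : ∀ i, ‖(2 / 5 : ℝ) • x i‖ * ‖(2 / 5 : ℝ) • x i‖ ≤ 1 := fun i => by
    have : ‖(2 / 5 : ℝ) • x i‖ ≤ 1 := by rw [norm_smul]; norm_num; linarith [h1 i]
    nlinarith [norm_nonneg ((2 / 5 : ℝ) • x i)]
  obtain ⟨a, b, ha, hb, h⟩ := defect (x := fun i => (2 / 5 : ℝ) • x i)
    (fun i => (CStarAlgebra.norm_le_one_iff_of_nonneg _ (star_mul_self_nonneg _)).1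
      (CStarRing.norm_star_mul_self.trans_le (n1 i)))
    (fun i => (CStarAlgebra.norm_le_one_iff_of_nonneg _ (mul_star_self_nonneg _)).1
      (CStarRing.norm_self_mul_star.trans_le (n1 i)))
    ((CStarAlgebra.norm_le_one_iff_of_nonneg _
      (sum_nonneg fun _ _ => mul_star_self_nonneg _)).1 (by
        simp only [star_smul, smul_mul_smul_comm, ← smul_sum, norm_smul]
        norm_num; linarith))
    (by
      have := (((IsSelfAdjoint.algebraMap _ (.all _)).sub (isSelfAdjoint_sum _ fun i _ =>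
        .star_mul_self (x i))).le_algebraMap_norm_self).trans
        (show algebraMap ℝ B _ ≤ _ from algebraMap_mono _ h3)
      rw [map_sub, sub_le_sub_iff_left, Algebra.algebraMap_eq_smul_one] at this
      simp only [star_smul, smul_mul_smul_comm, ← smul_sum]
      refine le_of_eq_of_le ?_ (smul_le_smul_of_nonneg_left this (by simp; positivity))
      rw [smul_smul]; norm_num)
  exact ⟨CStarMatrix (Bool × Fin 5 × ZMod 32) (Bool × Fin 5 × ZMod 32) B,
    inferInstance, inferInstanceAs (SeparableSpace (_ → _ → B)),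
    exists_two _ (rank_matrix hr), _, _, (diag_ok a ha).1, (diag_ok a ha).2, (diag_ok b hb).1,
    (diag_ok b hb).2, fun τ hτ => h τ hτ.1 hτ.2.1⟩

end Crest.Agent.H3Q
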