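import Crest.Agent.H3Q.QT

/-! General facts on quasitraces and matrices. -/

namespace Crest.Agent.H3Q
open Finset Crest.OpAlg Matrix

section
variable {C D : Type*} [Ring C] [StarRing C] [Algebra ℂ C] [StarModule ℂ C]
  [Ring D] [StarRing D] [Algebra ℂ D] [StarModule ℂ D]

lemma q_on {τ : C → ℂ} (hτ : IsOneQuasitrace τ) (s : Set C) (h1 : ∀ x ∈ s, ∀ y ∈ s, x * y = y * x)
    (h2 : ∀ x ∈ s, star x ∈ s) :
    (∀ x ∈ s, ∀ y ∈ s, τ (x + y) = τ x + τ y) ∧ ∀ c : ℂ, ∀ x ∈ s, τ (c • x) = c * τ x := by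
  have := StarAlgebra.isMulCommutative_adjoin ℂ h1 fun a ha b hb => h1 a ha _ (h2 b hb)
  have h := hτ.2.2 (StarAlgebra.adjoin ℂ s) fun x hx y hy => setLike_mul_comm hx hy
  have hs := StarAlgebra.subset_adjoin ℂ s
  exact ⟨fun x hx y hy => h.1 x (hs hx) y (hs hy), fun c x hx => h.2 c x (hs hx)⟩

lemma q_add {τ : C → ℂ} (hτ : IsOneQuasitrace τ) {h k : C} (hh : IsSelfAdjoint h)
    (hk : IsSelfAdjoint k) (hc : Commute h k) : τ (h + k) = τ h + τ k :=
  (q_on hτ {h, k} (by simp [hc.eq]) (by simp [hh.star_eq, hk.star_eq])).1 h (by simp) k (by simp)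

lemma q_smul {τ : C → ℂ} (hτ : IsOneQuasitrace τ) {h : C} (hh : IsSelfAdjoint h) (c : ℂ) :
    τ (c • h) = c * τ h :=
  (q_on hτ {h} (by simp) (by simp [hh.star_eq])).2 c h (by simp)

lemma q_sum {τ : C → ℂ} (hτ : IsOneQuasitrace τ) {I : Type*} (s : Finset I) (h : I → C)
    (hh : ∀ i, IsSelfAdjoint (h i)) (hc : ∀ i j, Commute (h i) (h j)) :
    τ (∑ i ∈ s, h i) = ∑ i ∈ s, τ (h i) := by
  induction s using Finset.cons_induction with
  | empty => simpa using q_smul hτ (.zero C) 0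
  | cons a s ha ih =>
    rw [sum_cons, sum_cons, q_add hτ (hh a) (isSelfAdjoint_sum _ fun i _ => hh i)
      (.sum_right _ _ _ fun i _ => hc a i), ih]

lemma q_comp {τ : D → ℂ} (hτ : IsOneQuasitrace τ) (φ : C →⋆ₙₐ[ℂ] D) :
    IsOneQuasitrace (fun x => τ (φ x)) := by
  refine ⟨fun x => by simpa [map_star] using hτ.1 (φ x), fun h k hh hk => by
    simpa using hτ.2.1 _ _ (hh.map φ) (hk.map φ), fun S hS => ?_⟩
  have := q_on hτ (φ '' S) (by
    rintro _ ⟨x, hx, rfl⟩ _ ⟨y, hy, rfl⟩; rw [← map_mul, ← map_mul, hS x hx y hy]) (by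
    rintro _ ⟨x, hx, rfl⟩; exact ⟨star x, star_mem hx, map_star _ _⟩)
  exact ⟨fun x hx y hy => by simpa using this.1 _ ⟨x, hx, rfl⟩ _ ⟨y, hy, rfl⟩,
    fun c x hx => by simpa using this.2 c _ ⟨x, hx, rfl⟩⟩

lemma q_two {τ : C → ℂ} (hτ : IsOneQuasitrace τ) : IsOneQuasitrace (fun x => 2 * τ x) := by
  refine ⟨fun x => ?_, fun h k hh hk => ?_, fun S hS => ⟨fun x hx y hy => ?_, fun c x hx => ?_⟩⟩
  · obtain ⟨h1, h2, h3⟩ := hτ.1 x
    exact ⟨by simp [h1], by simp [h2], by simpa using h3⟩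
  · simp only [hτ.2.1 h k hh hk]; ring
  · simp only [(hτ.2.2 S hS).1 x hx y hy]; ring
  · simp only [(hτ.2.2 S hS).2 c x hx]; ring

variable {I : Type*} [Fintype I] [DecidableEq I]

/-- corner embedding -/
def corner (p : I) : C →⋆ₙₐ[ℂ] Matrix I I C where
  toFun := single p p
  map_smul' _ _ := (smul_single _ _ _ _).symm
  map_zero' := single_zero _ _
  map_add' := single_add _ _
  map_mul' _ _ := (single_mul_single_same _ _ _ _ _).symm
  map_star' _ := (conjTranspose_single _ _ _).symm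

lemma q_swap {τ : Matrix I I C → ℂ} (hτ : IsOneQuasitrace τ) (p q : I) (c : C) :
    τ (single p p (star c * c)) = τ (single q q (c * star c)) := by
  simpa [star_eq_conjTranspose, conjTranspose_single] using (hτ.1 (single q p c)).1

lemma q_diag {τ : Matrix I I C → ℂ} (hτ : IsOneQuasitrace τ) (d : I → C)
    (hd : ∀ p, IsSelfAdjoint (d p)) : τ (diagonal d) = ∑ p, τ (single p p (d p)) := by
  rw [← q_sum hτ _ (fun p => single p p (d p)) (fun p => (hd p).map (corner p)) fun p q => ?_,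
    sum_single_eq_diagonal]
  by_cases h : p = q
  · rw [h]; exact .refl _
  · rw [Commute, SemiconjBy, single_mul_single_of_ne _ _ _ _ h,
      single_mul_single_of_ne _ _ _ _ (Ne.symm h)]

lemma q_one {τ : Matrix I I C → ℂ} (hτ : IsOneQuasitrace τ) (p : I) :
    τ 1 = Fintype.card I * τ (single p p 1) := by
  rw [← diagonal_one, q_diag hτ _ fun _ => .one C]
  simp [fun q => show τ (single q q 1) = τ (single p p 1) by simpa using q_swap hτ q p 1]

end

lemma rank_matrix {R I : Type*} [Ring R] [Fintype I] [DecidableEq I] [Nonempty I]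
    (h : RankCondition R) : RankCondition (Matrix I I R) := by
  refine rankCondition_iff_matrix.2 fun n m f g hgf => ?_
  have := rankCondition_iff_matrix.1 h _ _
    ((comp _ _ _ _ _ f).submatrix (Fintype.equivFin _).symm (Fintype.equivFin _).symm)
    ((comp _ _ _ _ _ g).submatrix (Fintype.equivFin _).symm (Fintype.equivFin _).symm) (by
      rw [submatrix_mul_equiv, ← submatrix_one_equiv (Fintype.equivFin _).symm, ← comp_one, ← hgf]
      congr 1
      ext ⟨a, b⟩ ⟨c, d⟩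
      simp [mul_apply, Fintype.sum_prod_type, Matrix.sum_apply])
  simpa [Fintype.card_pos] using this

theorem exists_two (A : Type*) [CStarAlgebra A] [PartialOrder A] [StarOrderedRing A]
    (h : RankCondition A) : ∃ τ : A → ℂ, IsNormalizedTwoQuasitrace τ := by
  haveI : RankCondition (CStarMatrix (Fin 2) (Fin 2) A) := rank_matrix h
  obtain ⟨f, hf⟩ := exists_rank (R := CStarMatrix (Fin 2) (Fin 2) A)
  have h1 : IsOneQuasitrace (C := Matrix (Fin 2) (Fin 2) A) (tau (D := CStarMatrix _ _ A) f) :=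
    isOneQuasitrace_tau (D := CStarMatrix _ _ A) hf
  refine ⟨_, q_comp (q_two h1) (corner 0), ?_, _, q_two h1, fun x => rfl⟩
  have := q_one h1 0
  rw [Fintype.card_fin] at this
  exact this.symm.trans (tau_one hf)

end Crest.Agent.H3Q
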