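import Crest.Agent.H3Q.Count

/-! Finite configurations of vectors satisfying fewer linear equations than unknowns. -/

namespace Crest.Agent.H3Q
open Finset Matrix
open scoped ComplexOrder MatrixOrder InnerProductSpace

variable {σ ι : Type} [Fintype σ] [Fintype ι] [DecidableEq σ] [DecidableEq ι]

/-- position of the vectors `x_i ξ_j` -/
abbrev pu (p : σ × ι) : Option (σ × Bool) × ι := (some (p.1, false), p.2)

/-- the Lagrangian form -/
noncomputable def hf (M N : Matrix ι ι ℂ) (N' : Matrix (σ × ι) (σ × ι) ℂ) (S : Matrix ι (σ × ι) ℂ)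
    (z : Option (σ × Bool) × ι → ℂ) : ℝ :=
  (∑ i, sq M (z ∘ .mk (some (i, false))) (z ∘ .mk (some (i, false))) -
    (Fintype.card σ - 1) * sq M (z ∘ .mk none) (z ∘ .mk none)) +
  (sq N (z ∘ .mk none) (z ∘ .mk none) -
    ∑ i, sq N (z ∘ .mk (some (i, true))) (z ∘ .mk (some (i, true)))) +
  (∑ i, sq (N'.submatrix (.mk i) (.mk i)) (z ∘ .mk none) (z ∘ .mk none) -
    sq N' (z ∘ pu) (z ∘ pu)) +
  2 * (sq S (z ∘ .mk none) (z ∘ pu) -
    ∑ i, sq (S.submatrix id (.mk i)) (z ∘ .mk (some (i, true))) (z ∘ .mk none))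

lemma hf_qf (M N : Matrix ι ι ℂ) (N' : Matrix (σ × ι) (σ × ι) ℂ) (S : Matrix ι (σ × ι) ℂ) :
    ∃ X, ∀ z, sq X z z = hf M N N' S z := by
  let Q : Submodule ℝ ((Option (σ × Bool) × ι → ℂ) → ℝ) :=
    { carrier := {q | ∃ X, ∀ z, sq X z z = q z}
      add_mem' := fun ⟨X, hX⟩ ⟨Y, hY⟩ => ⟨X + Y, fun z => by simp [sq_add, hX, hY]⟩
      zero_mem' := ⟨0, fun z => sq_zero z z⟩
      smul_mem' := fun t _ ⟨X, hX⟩ => ⟨t • X, fun z => by simp [sq_smul, hX]⟩ }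
  have b : ∀ {α β : Type} [Fintype α] [Fintype β] (M : Matrix α β ℂ) (f : α → _) (g : β → _),
      (fun z => sq M (z ∘ f) (z ∘ g)) ∈ Q := fun M f g =>
    ⟨((1 : Matrix _ _ ℂ).submatrix f id)ᴴ * M * (1 : Matrix _ _ ℂ).submatrix g id, fun z => by
      rw [sq_mul]; congr 1 <;> ext <;> simp [mulVec, dotProduct, one_apply]⟩
  obtain ⟨X, hX⟩ := Q.add_mem (Q.add_mem (Q.add_mem
    (Q.sub_mem (Q.sum_mem fun i (_ : i ∈ univ) =>
        b M (.mk (some (i, false))) (.mk (some (i, false))))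
      (Q.smul_mem ((Fintype.card σ : ℝ) - 1) (b M (.mk none) (.mk none))))
    (Q.sub_mem (b N (.mk none) (.mk none)) (Q.sum_mem fun i (_ : i ∈ univ) =>
        b N (.mk (some (i, true))) (.mk (some (i, true))))))
    (Q.sub_mem (Q.sum_mem fun i (_ : i ∈ univ) =>
        b (N'.submatrix (.mk i) (.mk i)) (.mk none) (.mk none)) (b N' pu pu)))
    (Q.smul_mem (2 : ℝ) (Q.sub_mem (b S (.mk none) pu) (Q.sum_mem fun i (_ : i ∈ univ) =>
        b (S.submatrix id (.mk i)) (.mk (some (i, true))) (.mk none))))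
  exact ⟨X, fun z => by simp [hX, hf]⟩

omit [DecidableEq σ] [DecidableEq ι] in
lemma hf_add (M N M' N' : Matrix ι ι ℂ) (P P' : Matrix (σ × ι) (σ × ι) ℂ)
    (S S' : Matrix ι (σ × ι) ℂ) (z : Option (σ × Bool) × ι → ℂ) :
    hf (M + M') (N + N') (P + P') (S + S') z = hf M N P S z + hf M' N' P' S' z := by
  simp only [hf, submatrix_add, Pi.add_apply, sq_add, sum_add_distrib]; ring

omit [DecidableEq σ] [DecidableEq ι] in
lemma hf_smul (t : ℝ) (M N : Matrix ι ι ℂ) (P : Matrix (σ × ι) (σ × ι) ℂ)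
    (S : Matrix ι (σ × ι) ℂ) (z : Option (σ × Bool) × ι → ℂ) :
    hf (t • M) (t • N) (t • P) (t • S) z = t * hf M N P S z := by
  simp only [hf, submatrix_smul, Pi.smul_apply, sq_smul, ← mul_sum]; ring

omit [DecidableEq σ] in
lemma hf_one [Nonempty σ] (z : Option (σ × Bool) × ι → ℂ) : hf 1 1 0 0 z ≤ nsq z := by
  have h : (1 : ℝ) ≤ Fintype.card σ := by exact_mod_cast Fintype.card_pos
  have e : nsq z = nsq (z ∘ .mk none) + (∑ i, nsq (z ∘ .mk (some (i, true))) +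
      ∑ i, nsq (z ∘ .mk (some (i, false)))) := by
    simp [nsq, Fintype.sum_prod_type, sum_add_distrib]
  have := sum_nonneg fun i (_ : i ∈ univ) => nsq_nonneg (z ∘ .mk (some (i, true)))
  simp only [hf, submatrix_zero, Pi.zero_apply, sq_zero, sq_one, sum_const_zero]
  nlinarith [nsq_nonneg (z ∘ .mk none)]

lemma hf_nonneg [Nonempty σ] {E : Type*} [Fintype E] (hE : Fintype.card E < Fintype.card ι)
    (φ : E → Option (σ × Bool) × ι → ℂ) {M N : Matrix ι ι ℂ} {N' : Matrix (σ × ι) (σ × ι) ℂ}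
    (hM : M.PosDef) (hN : N.PosDef) (hN' : N'.PosSemidef) (S : Matrix ι (σ × ι) ℂ) :
    ∃ z ≠ 0, (∀ e, φ e ⬝ᵥ z = 0) ∧ 0 ≤ hf M N N' S z := by
  let zz : ((ι → ℂ) × (σ × ι → ℂ)) →ₗ[ℂ] (Option (σ × Bool) × ι → ℂ) :=
    { toFun := fun w p => match p with
        | (none, j) => w.1 j
        | (some (i, false), j) => w.2 (i, j)
        | (some (i, true), j) => (-(N⁻¹ *ᵥ S.submatrix id (.mk i) *ᵥ w.1)) j
      map_add' := fun w w' => by
        ext ⟨_ | ⟨i, _ | _⟩, j⟩ <;> simp [mulVec_add, add_comm]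
      map_smul' := fun c w => by
        ext ⟨_ | ⟨i, _ | _⟩, j⟩ <;> simp [mulVec_smul] }
  obtain ⟨u0, u, h0, hL, h1, h2⟩ := count hE hM
    (hN'.add (hN.inv.posSemidef.conjTranspose_mul_mul_same S)) ((Matrix.of φ).mulVecLin ∘ₗ zz)
  refine ⟨zz (u0, u), fun h => h0 (Prod.ext (funext fun j => congrFun h (none, j))
    (funext fun p => congrFun h (pu p))), congrFun hL, ?_⟩
  have hu := (isUnit_iff_isUnit_det _).1 hN.isUnit
  have i1 : ∀ y, sq N (N⁻¹ *ᵥ y) (N⁻¹ *ᵥ y) = sq N⁻¹ y y := fun y => by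
    rw [← sq_mul, hN.inv.1.eq, nonsing_inv_mul _ hu, Matrix.one_mul]
  have i2 : ∀ x y, sq N x (N⁻¹ *ᵥ y) = (star x ⬝ᵥ y).re := fun x y => by
    rw [sq, mulVec_mulVec, mul_nonsing_inv _ hu, one_mulVec]
  have i3 : 0 ≤ sq N u0 u0 + 2 * sq S u0 u + sq N⁻¹ (S *ᵥ u) (S *ᵥ u) := by
    have := sq_nonneg hN.posSemidef (u0 + N⁻¹ *ᵥ S *ᵥ u)
    have e := sq_conj N u0 (N⁻¹ *ᵥ S *ᵥ u)
    have e2 := i2 u0 (S *ᵥ u)
    have e3 := i1 (S *ᵥ u)
    rw [hN.1.eq] at e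
    simp only [sq, star_add, mulVec_add, add_dotProduct, dotProduct_add, Complex.add_re] at *
    linarith
  have i4 : ∀ y, sq N (-(N⁻¹ *ᵥ y)) (-(N⁻¹ *ᵥ y)) = sq N⁻¹ y y := fun y => by
    rw [← i1]; simp [sq, mulVec_neg]
  have i5 : ∀ A : Matrix ι ι ℂ, sq A (-(N⁻¹ *ᵥ A *ᵥ u0)) u0 = -sq N⁻¹ (A *ᵥ u0) (A *ᵥ u0) :=
    fun A => by rw [← i1, i2]; simp [sq]
  have i6 : ∀ i, sq ((N' + Sᴴ * N⁻¹ * S).submatrix (.mk i) (.mk i)) u0 u0 =
      sq (N'.submatrix (.mk i) (.mk i)) u0 u0 +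
      sq N⁻¹ (S.submatrix id (.mk i) *ᵥ u0) (S.submatrix id (.mk i) *ᵥ u0) := fun i => by
    rw [← sq_mul, ← sq_add]; rfl
  rw [sq_add, sq_mul] at h1
  simp only [i6, sum_add_distrib] at h2
  change 0 ≤ (∑ i, sq M (u ∘ .mk i) (u ∘ .mk i) - (Fintype.card σ - 1) * sq M u0 u0) +
    (sq N u0 u0 - ∑ i, sq N (-(N⁻¹ *ᵥ S.submatrix id (.mk i) *ᵥ u0))
      (-(N⁻¹ *ᵥ S.submatrix id (.mk i) *ᵥ u0))) +
    (∑ i, sq (N'.submatrix (.mk i) (.mk i)) u0 u0 - sq N' u u) +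
    2 * (sq S u0 u - ∑ i, sq (S.submatrix id (.mk i)) (-(N⁻¹ *ᵥ S.submatrix id (.mk i) *ᵥ u0)) u0)
  simp only [i4, i5, sum_neg_distrib]
  linarith

lemma exists_rows [Nonempty σ] {E : Type*} [Fintype E] (hE : Fintype.card E < Fintype.card ι)
    (φ : E → Option (σ × Bool) × ι → ℂ) :
    ∃ B : Matrix (Option (σ × Bool) × ι) (Option (σ × Bool) × ι) ℂ, B ≠ 0 ∧
      (∀ e r, φ e ⬝ᵥ B r = 0) ∧ ∀ M N N' S, M.PosSemidef → N.PosSemidef → N'.PosSemidef →
        0 ≤ ∑ r, hf M N N' S (B r) := by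
  obtain ⟨B, hB, h⟩ := sep {X | ∃ M N N' S, M.PosSemidef ∧ N.PosSemidef ∧ N'.PosSemidef ∧
      ∀ z, (∀ e, φ e ⬝ᵥ z = 0) → sq X z z = hf M N N' S z}
    ⟨0, 0, 0, 0, .zero, .zero, .zero, fun z _ => by simp [hf, sq_zero]⟩
    (by
      rintro X ⟨M, N, P, S, h1, h2, h3, h4⟩ Y ⟨M', N', P', S', k1, k2, k3, k4⟩
      exact ⟨_, _, _, S + S', h1.add k1, h2.add k2, h3.add k3, fun z hz => by
        rw [sq_add, hf_add, h4 z hz, k4 z hz]⟩)
    (by
      rintro t ht X ⟨M, N, P, S, h1, h2, h3, h4⟩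
      exact ⟨_, _, _, t • S, h1.smul ht, h2.smul ht, h3.smul ht, fun z hz => by
        rw [sq_smul, hf_smul, h4 z hz]⟩)
    (by
      rintro X ⟨M, N, P, S, h1, h2, h3, h4⟩ ε hε
      obtain ⟨z, hz, hk, h⟩ := hf_nonneg hE φ (PosDef.posSemidef_add h1 (PosDef.one.smul hε))
        (PosDef.posSemidef_add h2 (PosDef.one.smul hε)) h3 S
      refine ⟨z, hz, ?_⟩
      have e := hf_smul ε 1 1 0 0 z
      rw [smul_zero, smul_zero] at e
      rw [← add_zero P, ← add_zero S, hf_add, e, ← h4 z hk] at h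
      nlinarith [hf_one z])
  have hk : ∀ e r, φ e ⬝ᵥ B r = 0 := fun e r => by
    have := h (-vecMulVec (star (φ e)) (φ e)) ⟨0, 0, 0, 0, .zero, .zero, .zero, fun z hz => by
      simp [hf, sq_zero, sq_neg, sq_vmv_self, hz]⟩
    simp only [sq_neg, sq_vmv_self, sum_neg_distrib, Left.nonneg_neg_iff] at this
    simpa using (sum_eq_zero_iff_of_nonneg fun _ _ => by positivity).1
      (this.antisymm (sum_nonneg fun _ _ => by positivity)) r (mem_univ _)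
  refine ⟨B, hB, hk, fun M N P S h1 h2 h3 => ?_⟩
  obtain ⟨X, hX⟩ := hf_qf M N P S
  simpa only [hX] using h X ⟨M, N, P, S, h1, h2, h3, fun z _ => hX z⟩

theorem kernel [Nonempty σ] {E : Type*} [Fintype E] (hE : Fintype.card E < Fintype.card ι)
    (φ : E → Option (σ × Bool) × ι → ℂ) {H : Type*} [NormedAddCommGroup H]
    [InnerProductSpace ℂ H] {v : Option (σ × Bool) × ι → H} (hv : Orthonormal ℂ v) :
    ∃ ξ : Option (σ × Bool) × ι → H, (∀ p, ξ p ∈ Submodule.span ℂ (Set.range v)) ∧ ξ ≠ 0 ∧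
      (∀ e, ∑ p, φ e p • ξ p = 0) ∧
      (∀ c : ι → ℂ, (Fintype.card σ - 1) * ‖∑ j, c j • ξ (none, j)‖ ^ 2 ≤
        ∑ i, ‖∑ j, c j • ξ (some (i, false), j)‖ ^ 2) ∧
      (∀ c : ι → ℂ, ∑ i, ‖∑ j, c j • ξ (some (i, true), j)‖ ^ 2 ≤ ‖∑ j, c j • ξ (none, j)‖ ^ 2) ∧
      (∀ c : σ × ι → ℂ, ‖∑ p, c p • ξ (pu p)‖ ^ 2 ≤ ∑ i, ‖∑ j, c (i, j) • ξ (none, j)‖ ^ 2) ∧
      ∀ i j k, ⟪ξ (none, k), ξ (some (i, false), j)⟫_ℂ = ⟪ξ (some (i, true), k), ξ (none, j)⟫_ℂ := by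
  obtain ⟨B, hB, hk, h⟩ := exists_rows hE φ
  have e1 : ∀ {α : Type} [Fintype α] (c : α → ℂ) (f : α → _),
      ∑ j, c j • ∑ r, B r (f j) • v r = ∑ r, (c ⬝ᵥ (B r ∘ f)) • v r := fun c f => by
    simp only [smul_sum, dotProduct, sum_smul, smul_smul]; rw [sum_comm]; rfl
  have e2 : ∀ l : _ → ℂ, ‖∑ r, l r • v r‖ ^ 2 = ∑ r, ‖l r‖ ^ 2 := fun l => by
    rw [← inner_self_eq_norm_sq (𝕜 := ℂ), hv.inner_sum]
    simp [Complex.sq_norm, Complex.normSq_apply]
  refine ⟨fun p => ∑ r, B r p • v r, fun p => Submodule.sum_mem _ fun r _ =>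
    Submodule.smul_mem _ _ (Submodule.subset_span ⟨r, rfl⟩), fun h0 => hB ?_, fun e => ?_,
    fun c => ?_, fun c => ?_, fun c => ?_, fun i j k => ?_⟩
  · ext r p
    exact Fintype.linearIndependent_iff.1 hv.linearIndependent _ (congrFun h0 p) r
  · simpa [hk] using e1 (φ e) id
  · have := h _ 0 0 0 (posSemidef_vecMulVec_star_self c) .zero .zero
    simp only [hf, submatrix_zero, Pi.zero_apply, sq_zero, sum_const_zero, sq_vmv_self, sub_self,
      add_zero, mul_zero, sum_sub_distrib, ← mul_sum] at this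
    simp only [e1 c (Prod.mk _), e2]
    rw [sum_comm]; linarith
  · have := h 0 _ 0 0 .zero (posSemidef_vecMulVec_star_self c) .zero
    simp only [hf, submatrix_zero, Pi.zero_apply, sq_zero, sum_const_zero, sq_vmv_self, sub_self,
      add_zero, zero_add, mul_zero, sum_sub_distrib] at this
    simp only [e1 c (Prod.mk _), e2]
    rw [sum_comm]; linarith
  · have := h 0 0 _ 0 .zero .zero (posSemidef_vecMulVec_star_self c)
    have e : ∀ i, (vecMulVec (star c) c).submatrix (.mk i) (.mk i) =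
      vecMulVec (star (c ∘ .mk i)) (c ∘ .mk i) := fun _ => rfl
    simp only [hf, submatrix_zero, Pi.zero_apply, sq_zero, sum_const_zero, sq_vmv_self, sub_self,
      add_zero, zero_add, mul_zero, sum_sub_distrib, e] at this
    simp only [e1 c pu, e1 (fun j => c (_, j)) (Prod.mk _), e2]
    rw [sum_comm (s := univ (α := σ))]; exact sub_nonneg.1 this
  · have key : ∀ t : ℂ, 0 ≤ (t * (⟪∑ r, B r (none, k) • v r, ∑ r, B r (some (i, false), j) • v r⟫_ℂ -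
        ⟪∑ r, B r (some (i, true), k) • v r, ∑ r, B r (none, j) • v r⟫_ℂ)).re := fun t => by
      have := h 0 0 0 (single k (i, j) t) .zero .zero .zero
      simp only [hf, submatrix_zero, Pi.zero_apply, sq_zero, sum_const_zero, sub_self,
        zero_add, mul_zero, ← mul_sum] at this
      refine (nonneg_of_mul_nonneg_right this two_pos).trans_eq ?_
      rw [hv.inner_sum, hv.inner_sum, ← sum_sub_distrib, mul_sum, Complex.re_sum]
      refine sum_congr rfl fun r _ => ?_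
      simp [sq_eq, single, ite_and, Prod.ext_iff, apply_ite, Fintype.sum_prod_type]
      ring
    rw [← sub_eq_zero]
    generalize (_ - _ : ℂ) = w at key
    have := key (-starRingEnd ℂ w)
    rw [neg_mul, ← Complex.normSq_eq_conj_mul_self] at this
    exact Complex.normSq_eq_zero.1 (le_antisymm (by simpa using this) (Complex.normSq_nonneg _))

end Crest.Agent.H3Q
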