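import Crest.Agent.H3Q.Kernel
import Crest.Agent.H3Q.Comp

/-! Operator models for linear equations in words. -/

namespace Crest.Agent.H3Q
open Finset ContinuousLinearMap
open scoped InnerProductSpace

/-- the Hilbert space -/
noncomputable abbrev HH := lp (fun _ : ℕ => ℂ) 2

/-- the value of a letter -/
def lt {σ A : Type*} [Star A] (x : σ → A) (l : σ × Bool) : A := if l.2 then star (x l.1) else x l.1

variable {σ ι : Type} [Fintype σ] [Fintype ι] [DecidableEq σ] [DecidableEq ι]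

/-- the relations -/
def Rels {H : Type} [NormedAddCommGroup H] [NormedSpace ℂ H] (x : σ → H →L[ℂ] H) : Prop :=
  (∀ ψ : σ → H, ‖∑ i, x i (ψ i)‖ ^ 2 ≤ 25 / 4 * ∑ i, ‖ψ i‖ ^ 2) ∧
    ∀ ψ, (Fintype.card σ - 1) / 2 * ‖ψ‖ ^ 2 ≤ ∑ i, ‖x i ψ‖ ^ 2

theorem model [Nonempty σ] {E : Type*} [Fintype E] (hE : Fintype.card E < Fintype.card ι)
    (φ : E → Option (σ × Bool) × ι → ℂ) :
    ∃ x : σ → HH →L[ℂ] HH, Rels x ∧ ∃ ξ : Option (σ × Bool) × ι → HH, ξ ≠ 0 ∧
      (∀ e, ∑ p, φ e p • ξ p = 0) ∧ ∀ l j, ξ (some l, j) = lt x l (ξ (none, j)) := by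
  obtain ⟨f, hf⟩ := exists_injective_nat ((Option (σ × Bool) × ι) ⊕ σ × ℕ)
  have hw := (default : HilbertBasis ℕ ℂ HH).orthonormal.comp f hf
  set w := (default : HilbertBasis ℕ ℂ HH) ∘ f
  have hi : ∀ i : σ, Orthonormal ℂ (w ∘ fun m => .inr (i, m)) := fun i =>
    hw.comp _ fun _ _ h => by simpa using h
  let s : σ → HH →L[ℂ] HH := fun i => (hi i).orthogonalFamily.linearIsometry.toContinuousLinearMap
  have hs : ∀ i y ψ, (∀ m, ⟪y, w (.inr (i, m))⟫_ℂ = 0) → ⟪y, s i ψ⟫_ℂ = 0 := fun i y ψ h => by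
    have := (innerSL ℂ y).hasSum ((hi i).orthogonalFamily.hasSum_linearIsometry ψ)
    simp only [LinearIsometry.toSpanSingleton_apply, innerSL_apply_apply, inner_smul_right,
      Function.comp_apply, h, mul_zero] at this
    exact this.unique hasSum_zero
  obtain ⟨ξ, hF, h0, hk, h1, h2, h3, h4⟩ := kernel hE φ (hw.comp Sum.inl Sum.inl_injective)
  have hξ : ∀ p i ψ, ⟪ξ p, s i ψ⟫_ℂ = 0 := fun p i ψ => by
    have : Submodule.span ℂ (Set.range (w ∘ Sum.inl)) ≤ (ℂ ∙ s i ψ)ᗮ := Submodule.span_le.2 (by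
      rintro _ ⟨r, rfl⟩
      exact Submodule.mem_orthogonal_singleton_iff_inner_left.2
        (hs i _ ψ fun m => hw.2 (by simp)))
    exact Submodule.mem_orthogonal_singleton_iff_inner_left.1 (this (hF p))
  obtain ⟨x, k1, k2, k3, k4⟩ := completion s (fun i j ψ φ => by
      split_ifs with h
      · subst h; exact LinearIsometry.inner_map_map _ _ _
      · exact hs j _ _ fun m => inner_eq_zero_symm.1 (hs i _ _ fun k => hw.2 (by simp [Ne.symm h])))
    (Fintype.linearCombination ℂ fun j => ξ (none, j))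
    (fun i => Fintype.linearCombination ℂ fun j => ξ (some (i, false), j))
    (fun i => Fintype.linearCombination ℂ fun j => ξ (some (i, true), j))
    (fun i ψ c => by simp [Fintype.linearCombination_apply, sum_inner, inner_smul_left, hξ])
    (fun i j ψ c => by simp [Fintype.linearCombination_apply, sum_inner, inner_smul_left, hξ])
    h1 h2 (fun c => by
      simpa [Fintype.linearCombination_apply, Fintype.sum_prod_type] using h3 fun p => c p.1 p.2)
    (fun i c d => by
      simp [Fintype.linearCombination_apply, sum_inner, inner_sum, inner_smul_left,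
        inner_smul_right, h4])
  refine ⟨x, ⟨k3, k4⟩, ξ, h0, hk, ?_⟩
  rintro ⟨i, _ | _⟩ j
  · simpa [lt] using (k1 i (Pi.single j 1)).symm
  · simpa [lt, star_eq_adjoint] using (k2 i (Pi.single j 1)).symm

end Crest.Agent.H3Q
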