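import Crest.Agent.H3Q.State
import Crest.Prelude.Def_Quasitrace

/-! From a rank function on a C⋆-algebra to a quasitrace. -/

namespace Crest.Agent.H3Q
open MeasureTheory TopologicalSpace Set Crest.OpAlg ComplexStarModule
open scoped ENNReal NNReal

lemma IsRank.comp {R S : Type*} [Ring R] [Ring S] {f : S → ℝ} (hf : IsRank f) (φ : R →+* S) :
    IsRank (f ∘ φ) where
  nonneg x := hf.nonneg _
  one := by simpa using hf.one
  mul p x q := by simpa using hf.mul _ _ _
  add x y := by simpa using hf.add _ _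
  orth p q p' q' z h1 h2 := by
    simpa using hf.orth (φ p) (φ q) (φ p') (φ q') (φ z) (by simpa using congrArg φ h1)
      (by simpa using congrArg φ h2)

lemma IsRank.zero {R : Type*} [Ring R] {f : R → ℝ} (hf : IsRank f) : f 0 = 0 := by
  have := hf.orth 0 0 0 0 0 (by simp) (by simp)
  have h := hf.nonneg 0
  simp at this; linarith

lemma IsRank.le_one {R : Type*} [Ring R] {f : R → ℝ} (hf : IsRank f) (x : R) : f x ≤ 1 := by
  simpa [hf.one] using hf.mul x 1 1

section comm
variable {X : Type*} [TopologicalSpace X] [CompactSpace X] [T2Space X] [MeasurableSpace X]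
  [BorelSpace X]

omit [CompactSpace X] [T2Space X] [MeasurableSpace X] [BorelSpace X] in
lemma IsRank.le_of_supp {f : C(X, ℝ) → ℝ} (hf : IsRank f) (v w : C(X, ℝ))
    (h : ∀ x, v x ≠ 0 → 1 ≤ w x) : f v ≤ f w := by
  have hne : ∀ x, (w ⊔ 1) x ≠ 0 := fun x => (lt_of_lt_of_le one_pos (by simp)).ne'
  have : v = (⟨fun x => v x / (w ⊔ 1) x, v.continuous.div (w ⊔ 1).continuous hne⟩ : C(X, ℝ)) *
      w * 1 := by
    ext x
    by_cases hx : v x = 0
    · simp [hx]
    · have := h x hx
      simp [max_eq_left this]; field_simp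
  rw [this]; exact hf.mul _ _ _

theorem exists_measure {f : C(X, ℝ) → ℝ} (hf : IsRank f) : ∃ μ : Measure X, IsFiniteMeasure μ ∧
    ∀ (g : C(X, ℝ)) (t : ℝ), μ {x | t < g x} =
      ⨆ s > t, ENNReal.ofReal (f ((g - ContinuousMap.const X s) ⊔ 0)) := by
  let T : Compacts X → Set C(X, ℝ) := fun K => {w | 0 ≤ w ∧ ∀ x ∈ K, 1 ≤ w x}
  have hne : ∀ K, (f '' T K).Nonempty := fun K => ⟨_, 1, ⟨zero_le_one, fun _ _ => le_rfl⟩, rfl⟩
  have hb : ∀ K, BddBelow (f '' T K) := fun K => ⟨0, by rintro _ ⟨w, -, rfl⟩; exact hf.nonneg w⟩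
  let ν : Compacts X → ℝ := fun K => sInf (f '' T K)
  have ν0 : ∀ K, 0 ≤ ν K := fun K => le_csInf (hne K) (by rintro _ ⟨w, -, rfl⟩; exact hf.nonneg w)
  have νle : ∀ K, ∀ w ∈ T K, ν K ≤ f w := fun K w hw => csInf_le (hb K) ⟨w, hw, rfl⟩
  have leν : ∀ K a, (∀ w ∈ T K, a ≤ f w) → a ≤ ν K := fun K a h =>
    le_csInf (hne K) (by rintro _ ⟨w, hw, rfl⟩; exact h w hw)
  have sub : ∀ K₁ K₂, ν (K₁ ⊔ K₂) ≤ ν K₁ + ν K₂ := by
    intro K₁ K₂
    rw [← sub_le_iff_le_add]
    refine leν _ _ fun w hw => ?_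
    rw [sub_le_comm]
    refine leν _ _ fun w' hw' => ?_
    have := νle (K₁ ⊔ K₂) (w + w') ⟨add_nonneg hw.1 hw'.1, fun x hx => by
      have h1 : 0 ≤ w x := hw.1 x
      have h2 : 0 ≤ w' x := hw'.1 x
      rcases hx with hx | hx
      · simp; linarith [hw.2 x hx]
      · simp; linarith [hw'.2 x hx]⟩
    linarith [hf.add w w']
  let c : Content X :=
    { toFun := fun K => ⟨ν K, ν0 K⟩
      mono' := fun K₁ K₂ h => leν _ _ fun w hw => νle _ _ ⟨hw.1, fun x hx => hw.2 x (h hx)⟩
      sup_disjoint' := fun K₁ K₂ h h1 h2 => NNReal.eq (le_antisymm (sub _ _) (leν _ _ fun w hw => by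
        obtain ⟨ψ, e0, e1, hψ⟩ := exists_continuous_zero_one_of_isClosed h1 h2 h
        let p : C(X, ℝ) := (1 - ψ - ψ) ⊔ 0
        let q : C(X, ℝ) := (ψ + ψ - 1) ⊔ 0
        have hpq : p * w * q = 0 := by
          ext x
          rcases le_total (1 - ψ x - ψ x) 0 with h | h
          · simp [p, max_eq_right h]
          · simp [q, max_eq_right (show ψ x + ψ x - 1 ≤ 0 by linarith)]
        have := hf.orth p p q q w hpq (by rw [← hpq]; ring)
        have a1 := νle K₁ (p * w * p) ⟨fun x => by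
          have : 0 ≤ w x := hw.1 x
          change (0 : ℝ) ≤ p x * w x * p x
          nlinarith [mul_self_nonneg (p x)], fun x hx => by
          simpa [p, e0 hx] using hw.2 x (Or.inl hx)⟩
        have a2 := νle K₂ (q * w * q) ⟨fun x => by
          have : 0 ≤ w x := hw.1 x
          change (0 : ℝ) ≤ q x * w x * q x
          nlinarith [mul_self_nonneg (q x)], fun x hx => by
          simpa [q, e1 hx] using hw.2 x (Or.inr hx)⟩
        change ν K₁ + ν K₂ ≤ f w
        linarith))
      sup_le' := sub }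
  have hc : ∀ K, c K = ENNReal.ofReal (ν K) := fun K => (ENNReal.ofReal_eq_coe_nnreal (ν0 K)).symm
  have hopen : ∀ U (hU : IsOpen U), c.measure U = c.innerContent ⟨U, hU⟩ := fun U hU => by
    rw [c.measure_apply hU.measurableSet, c.outerMeasure_of_isOpen U hU]
  refine ⟨c.measure, ⟨?_⟩, fun g t => ?_⟩
  · rw [hopen _ isOpen_univ]
    exact (c.innerContent_le _ ⊤ (by simp)).trans_lt (c.lt_top _)
  have hU : IsOpen {x | t < g x} := isOpen_lt continuous_const g.continuous
  rw [hopen _ hU]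
  refine le_antisymm (iSup₂_le fun K hK => ?_) (iSup₂_le fun s hs => ?_)
  · obtain ⟨η, hη, hK'⟩ : ∃ η > 0, ∀ x ∈ K, t + 2 * η ≤ g x := by
      rcases (K : Set X).eq_empty_or_nonempty with h | h
      · exact ⟨1, one_pos, fun x hx => by
          have : x ∈ (K : Set X) := hx
          simp [h] at this⟩
      · obtain ⟨x₀, hx₀, hmin⟩ := K.isCompact.exists_isMinOn h g.continuous.continuousOn
        exact ⟨(g x₀ - t) / 2, by have : t < g x₀ := hK hx₀; linarith,
          fun x hx => by have : g x₀ ≤ g x := hmin hx; linarith⟩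
    refine le_trans ?_ (le_iSup₂_of_le (t + η) (by linarith) le_rfl)
    rw [hc]
    refine ENNReal.ofReal_le_ofReal ((νle K (ContinuousMap.const X η⁻¹ *
      ((g - ContinuousMap.const X (t + η)) ⊔ 0) * 1) ⟨fun x => ?_, fun x hx => ?_⟩).trans
      (hf.mul _ _ _))
    · simp; positivity
    · have := hK' x hx
      simp only [mul_one, ContinuousMap.mul_apply, ContinuousMap.const_apply,
        ContinuousMap.sup_apply, ContinuousMap.sub_apply, ContinuousMap.zero_apply]
      rw [← div_eq_inv_mul, le_div_iff₀ hη]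
      exact le_sup_of_le_left (by linarith)
  · let K : Compacts X := ⟨{x | s ≤ g x}, (isClosed_le continuous_const g.continuous).isCompact⟩
    refine le_trans ?_ (c.le_innerContent K _ fun x hx => lt_of_lt_of_le hs hx)
    rw [hc]
    refine ENNReal.ofReal_le_ofReal (leν _ _ fun w hw => hf.le_of_supp _ _ fun x hx => hw.2 x ?_)
    by_contra h
    have : g x - s ≤ 0 := by linarith [not_le.1 (show ¬ s ≤ g x from h)]
    simp [max_eq_right this] at hx

end comm

variable {D : Type*} [CStarAlgebra D] [PartialOrder D] [StarOrderedRing D]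

/-- distribution function -/
noncomputable def dd (f : D → ℝ) (h : D) (t : ℝ) : ℝ≥0∞ :=
  ⨆ s > t, ENNReal.ofReal (f (h - algebraMap ℝ D s)⁺)

/-- value on the positive part -/
noncomputable def tp (f : D → ℝ) (h : D) : ℝ := (∫⁻ t in Ioi 0, dd f h t).toReal

/-- value on self-adjoint elements -/
noncomputable def ts (f : D → ℝ) (h : D) : ℝ := tp f h - tp f (-h)

/-- the quasitrace -/
noncomputable def tau (f : D → ℝ) (z : D) : ℂ := ts f (ℜ z : D) + Complex.I * ts f (ℑ z : D)

lemma exists_rep {f : D → ℝ} (hf : IsRank f) {X : Type*} [TopologicalSpace X] [CompactSpace X]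
    [T2Space X] [MeasurableSpace X] [BorelSpace X] (φ : C(X, ℂ) →⋆ₐ[ℂ] D) :
    ∃ μ : Measure X, IsFiniteMeasure μ ∧ ∀ w, tau f (φ w) = ∫ x, w x ∂μ := by
  let ψ : C(X, ℝ) →+* D := φ.toRingHom.comp (ContinuousMap.realToRCLikeStarAlgHom X ℂ).toRingHom
  have hψ : ∀ g, ψ g = φ (g.realToRCLike ℂ) := fun g => rfl
  have sa : ∀ g, IsSelfAdjoint (ψ g) := fun g =>
    (ContinuousMap.isSelfAdjoint_realToRCLike ℂ).map φ
  have pos : ∀ g : C(X, ℝ), 0 ≤ ψ (g ⊔ 0) := fun g => by
    let r : C(X, ℝ) := ⟨fun x => √(g x), by fun_prop⟩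
    have : g ⊔ 0 = r * r := by
      ext x
      rcases le_total (g x) 0 with h | h
      · simp [r, h, Real.sqrt_eq_zero'.2 h]
      · simp [r, h]
    rw [this, map_mul]
    exact (sa r).mul_self_nonneg
  obtain ⟨μ, hμ, h⟩ := exists_measure (hf.comp ψ)
  have h1 : ∀ g s, (ψ g - algebraMap ℝ D s)⁺ = ψ ((g - ContinuousMap.const X s) ⊔ 0) := by
    intro g s
    have e : algebraMap ℝ D s = ψ (ContinuousMap.const X s) := by
      rw [hψ, IsScalarTower.algebraMap_apply ℝ ℂ D, ← AlgHomClass.commutes φ]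
      congr 1
    refine (CFC.posPart_negPart_unique (c := ψ ((ContinuousMap.const X s - g) ⊔ 0)) ?_ ?_
      (pos _) (pos _)).1
    · rw [e, ← map_sub, ← map_sub]
      congr 1; ext x
      rcases le_total (g x) s with h | h <;> simp [h]
    · rw [← map_mul, ← map_zero ψ]
      congr 1; ext x
      rcases le_total (g x) s with h | h <;> simp [h]
  have h2 : ∀ g, tp f (ψ g) = (∫⁻ x, ENNReal.ofReal (g x) ∂μ).toReal := by
    intro g
    have := lintegral_eq_lintegral_meas_lt μ (f := fun x => max (g x) 0)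
      (Filter.Eventually.of_forall fun x => le_max_right _ _) (by fun_prop)
    simp only [ENNReal.ofReal_max, ENNReal.ofReal_zero, zero_le, max_eq_left] at this
    rw [this, tp]
    congr 1
    refine setLIntegral_congr_fun measurableSet_Ioi fun t ht => ?_
    simp only [dd, h1]
    rw [show {a | t < max (g a) 0} = {a | t < g a} by
      ext a; simp [not_lt.2 (le_of_lt (mem_Ioi.1 ht))], h]
    rfl
  have int : ∀ g : C(X, ℝ), Integrable g μ := fun g =>
    g.continuous.integrable_of_hasCompactSupport (HasCompactSupport.of_compactSpace _)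
  have h3 : ∀ g, ts f (ψ g) = ∫ x, g x ∂μ := by
    intro g
    rw [ts, ← map_neg, h2, h2, integral_eq_lintegral_pos_part_sub_lintegral_neg_part (int g)]
    rfl
  refine ⟨μ, hμ, fun w => ?_⟩
  have e1 : (ℜ (φ w) : D) = ψ ⟨fun x => (w x).re, by fun_prop⟩ := by
    rw [← map_realPart, hψ]; congr 1; ext x
    simp [realPart_apply_coe, ← mul_add, Complex.add_conj]
  have e2 : (ℑ (φ w) : D) = ψ ⟨fun x => (w x).im, by fun_prop⟩ := by
    rw [← map_imaginaryPart, hψ]; congr 1; ext x
    simp [imaginaryPart_apply_coe, Complex.sub_conj]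
    ring_nf; simp
  have iw : Integrable w μ :=
    w.continuous.integrable_of_hasCompactSupport (HasCompactSupport.of_compactSpace _)
  rw [tau, e1, e2, h3, h3, ← integral_re_add_im iw, mul_comm]
  rfl

lemma tau_comm {f : D → ℝ} (hf : IsRank f) (S : StarSubalgebra ℂ D)
    (hS : ∀ x ∈ S, ∀ y ∈ S, x * y = y * x) :
    (∀ x ∈ S, ∀ y ∈ S, tau f (x + y) = tau f x + tau f y) ∧
      ∀ c : ℂ, ∀ x ∈ S, tau f (c • x) = c * tau f x := by
  let T := S.topologicalClosure
  haveI : IsClosed (T : Set D) := S.isClosed_topologicalClosure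
  letI : CommCStarAlgebra T :=
    { StarSubalgebra.cstarAlgebra T with
      mul_comm := (S.commRingTopologicalClosure fun x y => Subtype.ext (hS _ x.2 _ y.2)).mul_comm }
  borelize ↥(WeakDual.characterSpace ℂ T)
  let φ : C(WeakDual.characterSpace ℂ T, ℂ) →⋆ₐ[ℂ] D :=
    T.subtype.comp (gelfandStarTransform T).symm
  obtain ⟨μ, hμ, h⟩ := exists_rep hf φ
  have surj : ∀ x ∈ S, ∃ w, φ w = x := fun x hx =>
    ⟨gelfandStarTransform T ⟨x, S.le_topologicalClosure hx⟩, by simp [φ]⟩
  have int : ∀ w : C(WeakDual.characterSpace ℂ T, ℂ), Integrable w μ := fun w =>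
    w.continuous.integrable_of_hasCompactSupport (HasCompactSupport.of_compactSpace _)
  refine ⟨fun x hx y hy => ?_, fun c x hx => ?_⟩
  · obtain ⟨v, rfl⟩ := surj x hx
    obtain ⟨w, rfl⟩ := surj y hy
    rw [← map_add, h, h, h, ← integral_add (int v) (int w)]; rfl
  · obtain ⟨v, rfl⟩ := surj x hx
    rw [← map_smul, h, h, ← integral_const_mul]; rfl

lemma tau_sa (f : D → ℝ) {h : D} (hh : IsSelfAdjoint h) : tau f h = ts f h := by
  simp [tau, hh.coe_realPart, hh.imaginaryPart, ts]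

lemma tp_nonpos {f : D → ℝ} (hf : IsRank f) {h : D} (hh : h ≤ 0) : tp f h = 0 := by
  rw [tp, setLIntegral_congr_fun measurableSet_Ioi (g := fun _ => 0)]
  · simp
  intro t ht
  refine le_antisymm (iSup₂_le fun s hs => ?_) zero_le
  have hs0 : 0 ≤ algebraMap ℝ D s := algebraMap_nonneg D (le_of_lt (lt_trans ht hs))
  have h1 : h - algebraMap ℝ D s ≤ 0 := sub_nonpos.2 (hh.trans hs0)
  rw [(CFC.posPart_eq_zero_iff _ (by
    simpa using (IsSelfAdjoint.of_nonneg (neg_nonneg.2 h1)).neg)).2 h1, hf.zero]; simp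

lemma posPart_swap (x : D) {s : ℝ} (hs : 0 < s) :
    ∃ q, (star x * x - algebraMap ℝ D s)⁺ = star x * (x * star x - algebraMap ℝ D s)⁺ * q := by
  set y := x * star x with hy
  have hy0 : 0 ≤ y := mul_star_self_nonneg x
  have hne : ∀ r : ℝ, max r s ≠ 0 := fun r => (hs.trans_le (le_max_right _ _)).ne'
  have c1 : Continuous fun r : ℝ => (max r s)⁻¹ := (by fun_prop : Continuous fun r : ℝ => max r s).inv₀ hne
  obtain ⟨j, hj⟩ : ∃ j : ℝ → ℝ, j = fun r => (max r s)⁻¹ := ⟨_, rfl⟩
  obtain ⟨k, hk⟩ : ∃ k : ℝ → ℝ, k = fun r => (max r s - s) * j r := ⟨_, rfl⟩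
  obtain ⟨m, hm⟩ : ∃ m : ℝ → ℝ, m = fun r => s * j r := ⟨_, rfl⟩
  rw [← hj] at c1
  have ck : Continuous k := by rw [hk]; fun_prop
  have cm : Continuous m := by rw [hm]; fun_prop
  have hj0 : ∀ t, 0 ≤ j t := fun t => by
    rw [hj]; exact inv_nonneg.2 (hs.le.trans (le_max_right _ _))
  have e0 : (y - algebraMap ℝ D s)⁺ = cfc (fun r => max r s - s) y := by
    refine (CFC.posPart_negPart_unique (c := cfc (fun r => max r s - r) y) ?_ ?_
      (cfc_nonneg fun r _ => sub_nonneg.2 (le_max_right _ _))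
      (cfc_nonneg fun r _ => sub_nonneg.2 (le_max_left _ _))).1
    · rw [← cfc_sub _ _ y, ← cfc_const s y]
      nth_rewrite 1 [← cfc_id' ℝ y]
      rw [← cfc_sub _ _ y]
      congr 1; ext; ring
    · rw [← cfc_mul _ _ y, ← cfc_zero ℝ y]
      congr 1; ext r
      rcases le_total r s with h | h <;> simp [h]
  have e1 : cfc k y + cfc m y = 1 := by
    rw [← cfc_add y k m ck.continuousOn cm.continuousOn, ← cfc_one ℝ y]
    congr 1; ext r
    have := hne r
    simp only [hk, hm, hj, Pi.one_apply]; field_simp; ring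
  refine ⟨cfc j y * x, ?_⟩
  rw [e0, mul_assoc, ← mul_assoc (cfc _ y), ← cfc_mul _ _ y, ← mul_assoc, ← hk]
  refine (CFC.posPart_negPart_unique (c := algebraMap ℝ D s - star x * cfc m y * x) ?_ ?_
    (star_left_conjugate_nonneg (cfc_nonneg fun r _ => hk ▸ mul_nonneg
      (sub_nonneg.2 (le_max_right _ _)) (hj0 r)) x) ?_).1
  · rw [eq_sub_of_add_eq e1]; noncomm_ring
  · have : cfc k y * algebraMap ℝ D s = cfc k y * y * cfc m y := by
      nth_rewrite 3 [← cfc_id' ℝ y]
      rw [← cfc_const s y, ← cfc_mul _ _ y, ← cfc_mul _ _ y, ← cfc_mul _ _ y]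
      congr 1; ext r
      rcases le_total r s with h | h
      · simp [hk, h]
      · have := hne r
        simp only [hk, hm, hj, max_eq_left h] at this ⊢; field_simp
    calc star x * cfc k y * x * (algebraMap ℝ D s - star x * cfc m y * x)
        = star x * (cfc k y * algebraMap ℝ D s - cfc k y * y * cfc m y) * x := by
          rw [hy, mul_sub, mul_assoc _ x, ← Algebra.commutes]; noncomm_ring
      _ = 0 := by rw [this]; simp
  · obtain ⟨r, hr⟩ : ∃ r : ℝ → ℝ, r = fun t => √(m t) := ⟨_, rfl⟩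
    have cr : Continuous r := by rw [hr]; fun_prop
    have hm0 : ∀ t, 0 ≤ m t := fun t => hm ▸ mul_nonneg hs.le (hj0 t)
    have e2 : star x * cfc m y * x = star (cfc r y * x) * (cfc r y * x) := by
      rw [star_mul, (IsSelfAdjoint.cfc (f := r) (a := y)).star_eq, mul_assoc, mul_assoc,
        ← mul_assoc (cfc r y), ← cfc_mul _ _ y]
      simp only [hr, Real.mul_self_sqrt (hm0 _)]
    have e3 : (cfc r y * x) * star (cfc r y * x) = cfc (fun t => m t * t) y := by
      rw [star_mul, (IsSelfAdjoint.cfc (f := r) (a := y)).star_eq, mul_assoc, ← mul_assoc x, ← hy]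
      nth_rewrite 2 [← cfc_id' ℝ y]
      rw [← cfc_mul _ _ y, ← cfc_mul _ _ y]
      congr 1; ext t
      rw [hr, mul_left_comm, Real.mul_self_sqrt (hm0 _), mul_comm]
    have e4 : ‖star x * cfc m y * x‖ ≤ s := by
      rw [e2, CStarRing.norm_star_mul_self, ← CStarRing.norm_self_mul_star, e3]
      refine norm_cfc_le hs.le fun t ht => ?_
      have ht0 : 0 ≤ t := spectrum_nonneg_of_nonneg hy0 ht
      rw [Real.norm_of_nonneg (mul_nonneg (hm0 t) ht0)]
      simp only [hm, hj]
      rw [mul_assoc, ← div_eq_inv_mul]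
      exact mul_le_of_le_one_right hs.le (div_le_one_of_le₀ (le_max_left _ _)
        (hs.le.trans (le_max_right _ _)))
    rw [sub_nonneg]
    exact (CStarAlgebra.norm_le_iff_le_algebraMap _ hs.le (e2 ▸ star_mul_self_nonneg _)).1 e4

lemma dd_swap {f : D → ℝ} (hf : IsRank f) (x : D) {t : ℝ} (ht : 0 < t) :
    dd f (star x * x) t ≤ dd f (x * star x) t := by
  refine iSup₂_mono fun s hs => ENNReal.ofReal_le_ofReal ?_
  obtain ⟨q, hq⟩ := posPart_swap x (ht.trans hs)
  rw [hq]; exact hf.mul _ _ _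

theorem isOneQuasitrace_tau {f : D → ℝ} (hf : IsRank f) : IsOneQuasitrace (tau f) := by
  refine ⟨fun x => ?_, fun h k hh hk => ?_, tau_comm hf⟩
  · have h1 := star_mul_self_nonneg x
    have h2 := mul_star_self_nonneg x
    rw [tau_sa f (.of_nonneg h1), tau_sa f (.of_nonneg h2), ts, ts,
      tp_nonpos hf (neg_nonpos.2 h1), tp_nonpos hf (neg_nonpos.2 h2)]
    refine ⟨?_, by simp, by simp [tp]⟩
    congr 2
    rw [tp, tp, setLIntegral_congr_fun measurableSet_Ioi fun t ht =>
      le_antisymm (dd_swap hf x ht) (by simpa using dd_swap hf (star x) ht)]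
  · rw [tau_sa f hh, tau_sa f hk, tau]
    simp [hh.coe_realPart, hh.imaginaryPart, hk.coe_realPart, hk.imaginaryPart]

theorem tau_one {f : D → ℝ} (hf : IsRank f) : tau f 1 = 1 := by
  rw [tau_sa f (IsSelfAdjoint.one D), ts, tp_nonpos hf (neg_nonpos.2 zero_le_one), tp,
    setLIntegral_congr_fun measurableSet_Ioi (g := (Iio 1).indicator 1)]
  · rw [lintegral_indicator_one measurableSet_Iio, Measure.restrict_apply measurableSet_Iio,
      Iio_inter_Ioi]
    simp
  intro t ht
  have e : ∀ s : ℝ, ((1 : D) - algebraMap ℝ D s)⁺ = algebraMap ℝ D (1 - s)⁺ := fun s => by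
    rw [← CFC.posPart_algebraMap, map_sub, map_one]
  simp only [dd, e]
  by_cases h : t < 1
  · rw [indicator_of_mem (mem_Iio.2 h), Pi.one_apply]
    refine le_antisymm (iSup₂_le fun s _ => ENNReal.ofReal_le_one.2 (hf.le_one _))
      (le_iSup₂_of_le ((t + 1) / 2) (by linarith) ?_)
    have hp : 0 < 1 - (t + 1) / 2 := by linarith
    have := hf.mul (algebraMap ℝ D (1 - (t + 1) / 2)⁻¹) (algebraMap ℝ D (1 - (t + 1) / 2)) 1
    rw [← map_mul, inv_mul_cancel₀ hp.ne', map_one, mul_one, hf.one] at this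
    rw [posPart_eq_self.2 hp.le]
    exact ENNReal.one_le_ofReal.2 this
  · rw [indicator_of_notMem (by simpa using h)]
    refine le_antisymm (iSup₂_le fun s hs => ?_) zero_le
    rw [posPart_eq_zero.2 (by linarith [not_lt.1 h]), map_zero, hf.zero]; simp

end Crest.Agent.H3Q
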