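import Mathlib

/-! Separation of a cone of Hermitian forms from the negative definite ones. -/

namespace Crest.Agent.H3Q
open Finset Matrix
open scoped ComplexOrder MatrixOrder Pointwise

/-- real part of a sesquilinear form -/
def sq {α β : Type*} [Fintype α] [Fintype β] (M : Matrix α β ℂ) (x : α → ℂ) (y : β → ℂ) : ℝ :=
  (star x ⬝ᵥ M *ᵥ y).re

/-- squared norm -/
noncomputable def nsq {α : Type*} [Fintype α] (x : α → ℂ) : ℝ := ∑ p, ‖x p‖ ^ 2

section
variable {α β : Type*} [Fintype α] [Fintype β]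

lemma sq_eq (M : Matrix α β ℂ) (x : α → ℂ) (y : β → ℂ) :
    sq M x y = ∑ p, ∑ q, (star (x p) * M p q * y q).re := by
  simp [sq, dotProduct, mulVec, mul_sum, mul_assoc]

lemma sq_add (M N : Matrix α β ℂ) (x : α → ℂ) (y : β → ℂ) :
    sq (M + N) x y = sq M x y + sq N x y := by simp [sq, add_mulVec]

lemma sq_sub (M N : Matrix α β ℂ) (x : α → ℂ) (y : β → ℂ) :
    sq (M - N) x y = sq M x y - sq N x y := by simp [sq, sub_mulVec]

lemma sq_neg (M : Matrix α β ℂ) (x : α → ℂ) (y : β → ℂ) :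
    sq (-M) x y = -sq M x y := by simp [sq, neg_mulVec]

lemma sq_zero (x : α → ℂ) (y : β → ℂ) : sq (0 : Matrix α β ℂ) x y = 0 := by simp [sq]

lemma sq_smul (t : ℝ) (M : Matrix α β ℂ) (x : α → ℂ) (y : β → ℂ) :
    sq (t • M) x y = t * sq M x y := by simp [sq, smul_mulVec]

lemma sq_sum {κ : Type*} (s : Finset κ) (M : κ → Matrix α β ℂ) (x : α → ℂ) (y : β → ℂ) :
    sq (∑ k ∈ s, M k) x y = ∑ k ∈ s, sq (M k) x y := by
  simp [sq, sum_mulVec, dotProduct_sum]

lemma sq_one [DecidableEq α] (x : α → ℂ) : sq (1 : Matrix α α ℂ) x x = nsq x := by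
  simp [sq, nsq, dotProduct, Complex.sq_norm, Complex.normSq_apply]

lemma sq_conj (M : Matrix α β ℂ) (x : α → ℂ) (y : β → ℂ) : sq Mᴴ y x = sq M x y := by
  rw [sq_eq, sq_eq, sum_comm]
  refine sum_congr rfl fun p _ => sum_congr rfl fun q _ => ?_
  rw [← Complex.conj_re]; simp; ring

lemma sq_mul {γ δ : Type*} [Fintype γ] [Fintype δ] (A : Matrix α γ ℂ) (M : Matrix α β ℂ)
    (B : Matrix β δ ℂ) (x : γ → ℂ) (y : δ → ℂ) :
    sq (Aᴴ * M * B) x y = sq M (A *ᵥ x) (B *ᵥ y) := by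
  simp only [sq, star_mulVec, ← mulVec_mulVec, dotProduct_mulVec]

lemma sq_vmv (c : α → ℂ) (d : β → ℂ) (x : α → ℂ) (y : β → ℂ) :
    sq (vecMulVec (star c) d) x y = (star (c ⬝ᵥ x) * (d ⬝ᵥ y)).re := by
  rw [sq_eq]
  simp only [dotProduct, star_sum, sum_mul_sum, Complex.re_sum, vecMulVec_apply]
  refine sum_congr rfl fun p _ => sum_congr rfl fun q _ => ?_
  congr 1; simp; ring

lemma sq_vmv_self (c : α → ℂ) (x : α → ℂ) :
    sq (vecMulVec (star c) c) x x = ‖c ⬝ᵥ x‖ ^ 2 := by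
  rw [sq_vmv]; simp [Complex.sq_norm, Complex.normSq_apply]

lemma nsq_nonneg (x : α → ℂ) : 0 ≤ nsq x := sum_nonneg fun _ _ => by positivity

lemma nsq_pos {x : α → ℂ} (hx : x ≠ 0) : 0 < nsq x := by
  obtain ⟨p, hp⟩ := Function.ne_iff.1 hx
  exact sum_pos' (fun _ _ => by positivity) ⟨p, mem_univ _, pow_pos (norm_pos_iff.2 hp) 2⟩

lemma sq_nonneg {M : Matrix α α ℂ} (hM : M.PosSemidef) (x : α → ℂ) : 0 ≤ sq M x x :=
  hM.re_dotProduct_nonneg x

lemma exists_sqrt [DecidableEq α] {M : Matrix α α ℂ} (hM : M.PosSemidef) :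
    ∃ B : Matrix α α ℂ, M = Bᴴ * B :=
  CStarAlgebra.nonneg_iff_eq_star_mul_self.1 hM.nonneg
end

attribute [local instance] Matrix.normedAddCommGroup Matrix.normedSpace in
theorem sep {P : Type*} [Fintype P] [DecidableEq P] (C : Set (Matrix P P ℂ)) (h0 : 0 ∈ C)
    (hadd : ∀ X ∈ C, ∀ Y ∈ C, X + Y ∈ C) (hsmul : ∀ t : ℝ, 0 ≤ t → ∀ X ∈ C, t • X ∈ C)
    (hC : ∀ X ∈ C, ∀ ε > 0, ∃ z ≠ 0, -ε * nsq z ≤ sq X z z) :
    ∃ B : Matrix P P ℂ, B ≠ 0 ∧ ∀ X ∈ C, 0 ≤ ∑ r, sq X (B r) (B r) := by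
  let N : Set (Matrix P P ℂ) := {X | ∀ z, sq X z z ≤ 0}
  have hN : Convex ℝ N := fun X hX Y hY a b ha hb _ z => by
    rw [sq_add, sq_smul, sq_smul]; nlinarith [hX z, hY z]
  have hCc : Convex ℝ C := fun X hX Y hY a b ha hb _ =>
    hadd _ (hsmul a ha X hX) _ (hsmul b hb Y hY)
  set k : ℝ := (Fintype.card P : ℝ) with hkd
  have hk : 0 ≤ k := Nat.cast_nonneg _
  have hb : ∀ (Y : Matrix P P ℂ) z, sq Y z z ≤ ‖Y‖ * k * nsq z := fun Y z => by
    rw [sq_eq]
    calc _ ≤ ∑ p, ∑ q, ‖Y‖ / 2 * (‖z p‖ ^ 2 + ‖z q‖ ^ 2) :=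
          sum_le_sum fun p _ => sum_le_sum fun q _ => by
            refine (Complex.re_le_norm _).trans ?_
            rw [norm_mul, norm_mul, norm_star]
            have h1 := Matrix.norm_entry_le_entrywise_sup_norm Y (i := p) (j := q)
            have h2 : ‖z p‖ * ‖Y p q‖ * ‖z q‖ ≤ ‖Y‖ * (‖z p‖ * ‖z q‖) := by
              rw [mul_right_comm, mul_comm]; gcongr
            nlinarith [mul_nonneg (norm_nonneg Y) (_root_.sq_nonneg (‖z p‖ - ‖z q‖))]
      _ = _ := by
        simp only [← mul_sum, sum_add_distrib, sum_const, card_univ, nsmul_eq_mul, nsq]; ring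
  let U := N + Metric.ball (-1 : Matrix P P ℂ) (1 / (2 * (k + 1)))
  obtain ⟨f, u, hU, hu⟩ := geometric_hahn_banach_open (s := U) (t := C)
    (hN.add (convex_ball _ _)) (Metric.isOpen_ball.add_left) hCc (by
      rw [Set.disjoint_left]
      rintro _ ⟨Y, hY, Z, hZ, rfl⟩ hX
      obtain ⟨z, hz, h⟩ := hC _ hX (1 / 4) (by norm_num)
      have h1 := hb (Z + 1) z
      rw [Metric.mem_ball, dist_eq_norm, sub_neg_eq_add, lt_div_iff₀ (by positivity)] at hZ
      simp only [sq_add, sq_one] at h h1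
      have h2 := nsq_pos hz
      have h3 : ‖Z + 1‖ * k ≤ 1 / 2 := by nlinarith [norm_nonneg (Z + 1)]
      nlinarith [hY z])
  have hu0 : u ≤ 0 := by simpa using hu 0 h0
  have hf : ∀ X ∈ C, 0 ≤ f X := fun X hX => by
    by_contra! h
    have := hu _ (hsmul ((u - 1) / f X) (div_nonneg_of_nonpos (by linarith) h.le) X hX)
    rw [map_smul, smul_eq_mul, div_mul_cancel₀ _ h.ne] at this; linarith
  have hm : ∀ Y ∈ N, f Y - f 1 < 0 := fun Y hY => by
    have := hU _ ⟨Y, hY, -1, Metric.mem_ball_self (by positivity), rfl⟩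
    simp only [map_add, map_neg] at this; linarith
  have h1 : 0 < f 1 := by simpa using hm 0 fun z => (sq_zero z z).le
  have hneg : ∀ Y ∈ N, f Y ≤ 0 := fun Y hY => by
    by_contra! h
    have := hm ((f 1 / f Y) • Y) fun z => by
      rw [sq_smul]; exact mul_nonpos_of_nonneg_of_nonpos (by positivity) (hY z)
    rw [map_smul, smul_eq_mul, div_mul_cancel₀ _ h.ne'] at this; linarith
  have hH : ∀ X, f Xᴴ = f X := fun X => by
    have h1 := hneg (Xᴴ - X) fun z => by rw [sq_sub, sq_conj, sub_self]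
    have h2 := hneg (X - Xᴴ) fun z => by rw [sq_sub, sq_conj, sub_self]
    rw [map_sub] at h1 h2; linarith
  let Γ : Matrix P P ℂ := fun p q => ⟨f (single p q 1), -f (single p q Complex.I)⟩
  have hΓ : ∀ X : Matrix P P ℂ, f X = ∑ p, ∑ q, (X p q * Γ p q).re := fun X => by
    conv_lhs => rw [matrix_eq_sum_single X]
    simp only [map_sum]
    refine sum_congr rfl fun p _ => sum_congr rfl fun q _ => ?_
    have : single p q (X p q) =
        (X p q).re • single p q (1 : ℂ) + (X p q).im • single p q Complex.I := by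
      rw [smul_single, smul_single, ← single_add]; congr 1; simp
    rw [this, map_add, map_smul, map_smul]; simp [Γ]
  have hh : Γ.IsHermitian := by
    ext p q
    have e1 := hH (single p q 1)
    have e2 := hH (single p q Complex.I)
    rw [conjTranspose_single] at e1 e2
    rw [star_one] at e1
    rw [show star Complex.I = -Complex.I by simp, ← single_neg, map_neg] at e2
    apply Complex.ext <;> simp [Γ, conjTranspose_apply] <;> linarith
  have hP : Γ.PosSemidef := PosSemidef.of_dotProduct_mulVec_nonneg hh fun c => by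
    have h2 := hneg (-vecMulVec (star c) c) fun z => by
      rw [sq_neg, sq_vmv_self]; simp
    rw [map_neg, hΓ] at h2
    refine ⟨?_, (hh.im_star_dotProduct_mulVec_self c).symm⟩
    have := sq_eq Γ c c
    simp only [sq] at this
    rw [this, Complex.zero_re]
    refine le_trans (by linarith) (le_of_eq ?_ : ∑ p, ∑ q, (vecMulVec (star c) c p q * Γ p q).re ≤ _)
    refine sum_congr rfl fun p _ => sum_congr rfl fun q _ => ?_
    rw [vecMulVec_apply, mul_right_comm]; rfl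
  obtain ⟨B, hB⟩ := exists_sqrt hP
  have key : ∀ X : Matrix P P ℂ, f X = ∑ r, sq X (B r) (B r) := fun X => by
    rw [hΓ, hB]
    simp only [sq_eq, mul_apply, mul_sum, Complex.re_sum, conjTranspose_apply]
    rw [eq_comm, sum_comm]
    refine sum_congr rfl fun p _ => ?_
    rw [sum_comm]
    refine sum_congr rfl fun q _ => sum_congr rfl fun r _ => ?_
    congr 1; ring
  refine ⟨B, ?_, fun X hX => key X ▸ hf X hX⟩
  rintro rfl
  simp [key, sq_eq] at h1

end Crest.Agent.H3Q
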