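import Mathlib

/-! From the rank condition to a rank function on a ring. -/

namespace Crest.Agent.H3Q
open Finset Matrix

section hb
variable {G : Type*} [AddCommGroup G]

/-- superadditive functions -/
def SupAdd (q : G → ℝ) : Prop := ∀ x y, q x + q y ≤ q (x + y)

lemma supAdd_sSup (S : G → Set ℝ) (hne : ∀ x, (S x).Nonempty) (hb : ∀ x, BddAbove (S x))
    (h : ∀ x y, ∀ a ∈ S x, ∀ b ∈ S y, ∃ c ∈ S (x + y), a + b ≤ c) :
    SupAdd fun x => sSup (S x) := by
  intro x y
  have : ∀ b ∈ S y, sSup (S x) ≤ sSup (S (x + y)) - b := fun b hb' =>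
    csSup_le (hne x) fun a ha => by
      obtain ⟨c, hc, hle⟩ := h x y a ha b hb'
      linarith [le_csSup (hb _) hc]
  have : sSup (S y) ≤ sSup (S (x + y)) - sSup (S x) :=
    csSup_le (hne y) fun b hb' => by linarith [this b hb']
  simp only; linarith

lemma SupAdd.neg {q : G → ℝ} (h : SupAdd q) (x : G) : q x + q (-x) ≤ 0 := by
  have h1 := h 0 0
  have h2 := h x (-x)
  rw [add_zero] at h1
  rw [add_neg_cancel] at h2
  linarith

lemma SupAdd.nsmul {q : G → ℝ} (h : SupAdd q) (h0 : 0 ≤ q 0) (x : G) (n : ℕ) :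
    n * q x ≤ q (n • x) := by
  induction n with
  | zero => simpa using h0
  | succ n ih => rw [succ_nsmul]; push_cast; linarith [h (n • x) x]

lemma exists_additive {q : G → ℝ} (hq : SupAdd q) (h0 : 0 ≤ q 0) :
    ∃ f : G →+ ℝ, ∀ x, q x ≤ f x := by
  obtain ⟨m, hqm, hm⟩ := zorn_le_nonempty₀ {p : G → ℝ | SupAdd p} (fun c hc hch y hy => by
    have hb : ∀ x, BddAbove ((fun p : G → ℝ => p x) '' c) := fun x => by
      refine ⟨max (y x) (-y (-x)), ?_⟩
      rintro _ ⟨p, hp, rfl⟩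
      rcases hch.total hp hy with h | h
      · exact (h x).trans (le_max_left _ _)
      · exact le_trans (by linarith [(hc hp).neg x, h (-x)]) (le_max_right _ _)
    refine ⟨fun x => sSup ((fun p : G → ℝ => p x) '' c),
      supAdd_sSup _ (fun x => ⟨_, y, hy, rfl⟩) hb ?_, fun z hz x => le_csSup (hb x) ⟨z, hz, rfl⟩⟩
    rintro x x' _ ⟨p, hp, rfl⟩ _ ⟨p', hp', rfl⟩
    rcases hch.total hp hp' with h | h
    · exact ⟨_, ⟨p', hp', rfl⟩, by linarith [h x, hc hp' x x']⟩
    · exact ⟨_, ⟨p, hp, rfl⟩, by linarith [h x', hc hp x x']⟩) q hq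
  have hs : SupAdd m := hm.prop
  have hm0 : 0 ≤ m 0 := h0.trans (hqm 0)
  have key : ∀ S : G → Set ℝ, (∀ x, m x ∈ S x) → (∀ x, BddAbove (S x)) →
      (∀ x y, ∀ a ∈ S x, ∀ b ∈ S y, ∃ c ∈ S (x + y), a + b ≤ c) → ∀ x, ∀ a ∈ S x, a ≤ m x := by
    intro S h1 h2 h3 x a ha
    have := hm.le_of_ge (supAdd_sSup S (fun x => ⟨_, h1 x⟩) h2 h3) fun x => le_csSup (h2 x) (h1 x)
    exact (le_csSup (h2 x) ha).trans (this x)
  have hom : ∀ (n : ℕ) x, m (n • x) ≤ n * m x := by
    intro n x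
    rcases Nat.eq_zero_or_pos n with rfl | hn
    · simpa using hs.neg 0 |>.trans' (by simp; linarith)
    have := key (fun x => {a | ∃ n : ℕ, 0 < n ∧ a = m (n • x) / n}) (fun x => ⟨1, one_pos, by simp⟩)
      (fun x => ⟨-m (-x), by
        rintro _ ⟨n, hn, rfl⟩
        have h1 := hs.neg (n • x)
        have h2 := hs.nsmul hm0 (-x) n
        rw [smul_neg] at h2
        rw [div_le_iff₀ (by positivity)]; linarith⟩) (by
        rintro x y _ ⟨n, hn, rfl⟩ _ ⟨k, hk, rfl⟩
        refine ⟨_, ⟨n * k, by positivity, rfl⟩, ?_⟩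
        have h1 := hs.nsmul hm0 (n • x) k
        have h2 := hs.nsmul hm0 (k • y) n
        have h3 := hs (k • n • x) (n • k • y)
        rw [smul_smul, smul_smul, mul_comm k n, ← smul_add] at h3
        rw [smul_smul, mul_comm k n] at h1
        rw [smul_smul] at h2
        rw [div_add_div _ _ (by positivity) (by positivity), Nat.cast_mul]
        gcongr; linarith) x _ ⟨n, hn, rfl⟩
    rwa [div_le_iff₀' (by positivity)] at this
  have add : ∀ x y, m (x + y) = m x + m y := by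
    intro x y
    refine le_antisymm ?_ (hs x y)
    have := key (fun x => {a | ∃ k : ℕ, a = m (x + k • y) - k * m y}) (fun x => ⟨0, by simp⟩)
      (fun x => ⟨-m (-x), by
        rintro _ ⟨k, rfl⟩
        have h1 := hs (x + k • y) (-x)
        rw [add_neg_cancel_comm] at h1
        linarith [hom k y]⟩) (by
        rintro x x' _ ⟨n, rfl⟩ _ ⟨k, rfl⟩
        refine ⟨_, ⟨n + k, rfl⟩, ?_⟩
        have h1 := hs (x + n • y) (x' + k • y)
        rw [add_add_add_comm, ← add_smul] at h1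
        push_cast; linarith) x _ ⟨1, rfl⟩
    simp at this; linarith
  exact ⟨AddMonoidHom.mk' m add, hqm⟩

lemma exists_state (C : AddSubmonoid G) (u : G) (hu : ∀ g, ∃ n : ℕ, n • u + g ∈ C)
    (h0 : ∀ n : ℕ, 0 < n → -(n • u) ∉ C) : ∃ f : G →+ ℝ, (∀ c ∈ C, 0 ≤ f c) ∧ f u = 1 := by
  let S : G → Set ℝ := fun g => {a | ∃ (n : ℕ) (m : ℤ), 0 < n ∧ a = m / n ∧ n • g - m • u ∈ C}
  have hb : ∀ g, BddAbove (S g) := fun g => by
    obtain ⟨k, hk⟩ := hu (-g)
    refine ⟨k, ?_⟩
    rintro _ ⟨n, m, hn, rfl, h⟩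
    rw [div_le_iff₀ (by positivity)]
    by_contra hc
    have h1 : (k * n : ℤ) < m := by exact_mod_cast not_le.1 hc
    obtain ⟨j, hj⟩ := Int.eq_ofNat_of_zero_le (sub_pos.2 h1).le
    refine h0 j (by omega) ?_
    convert C.add_mem h (C.nsmul_mem hk n) using 1
    rw [← natCast_zsmul, ← hj]; module
  have hs : SupAdd fun g => sSup (S g) := supAdd_sSup S (fun g => by
    obtain ⟨k, hk⟩ := hu g
    exact ⟨_, 1, -k, one_pos, rfl, by convert hk using 1; module⟩) hb (by
    rintro x y _ ⟨n, m, hn, rfl, h⟩ _ ⟨n', m', hn', rfl, h'⟩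
    refine ⟨_, ⟨n * n', m * n' + m' * n, by positivity, rfl, ?_⟩, le_of_eq ?_⟩
    · convert C.add_mem (C.nsmul_mem h n') (C.nsmul_mem h' n) using 1
      module
    · push_cast; field_simp)
  have hC : ∀ c ∈ C, 0 ≤ sSup (S c) := fun c hc =>
    le_csSup (hb c) ⟨1, 0, one_pos, by simp, by simpa using hc⟩
  obtain ⟨f, hf⟩ := exists_additive hs (hC 0 C.zero_mem)
  refine ⟨f, fun c hc => (hC c hc).trans (hf c), ?_⟩
  have h1 : 1 ≤ f u := (le_csSup (hb u) ⟨1, 1, one_pos, by simp, by simp⟩).trans (hf u)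
  have h2 : -1 ≤ f (-u) :=
    (le_csSup (hb (-u)) ⟨1, -1, one_pos, by simp, by simp⟩).trans (hf (-u))
  rw [map_neg] at h2; linarith

end hb

section rank
variable {R : Type*} [Ring R]

/-- class of a finite family -/
noncomputable def cls {ι : Type} [Fintype ι] (x : ι → R) : R →₀ ℤ := ∑ i, Finsupp.single (x i) 1

/-- algebraic comparison of diagonal matrices -/
def Rel (g h : R →₀ ℤ) : Prop :=
  ∃ (ι κ : Type) (_ : Fintype ι) (_ : Fintype κ) (_ : DecidableEq ι) (_ : DecidableEq κ)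
    (x : ι → R) (y : κ → R) (P : Matrix ι κ R) (Q : Matrix κ ι R),
    cls x = g ∧ cls y = h ∧ diagonal x = P * diagonal y * Q

lemma Rel.intro {g h : R →₀ ℤ} {ι κ : Type} [Fintype ι] [Fintype κ] [DecidableEq ι] [DecidableEq κ]
    (x : ι → R) (y : κ → R) (P : Matrix ι κ R) (Q : Matrix κ ι R) (h1 : cls x = g) (h2 : cls y = h)
    (h3 : diagonal x = P * diagonal y * Q) : Rel g h :=
  ⟨ι, κ, inferInstance, inferInstance, inferInstance, inferInstance, x, y, P, Q, h1, h2, h3⟩

omit [Ring R] in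
lemma exists_equiv {ι κ : Type} [Fintype ι] [Fintype κ] {x : ι → R} {y : κ → R}
    (h : cls x = cls y) : ∃ e : ι ≃ κ, x = y ∘ e := by
  classical
  have : ∀ a, Fintype.card {i // x i = a} = Fintype.card {j // y j = a} := by
    intro a
    have := DFunLike.congr_fun h a
    simp only [cls, Finsupp.finset_sum_apply, Finsupp.single_apply, sum_boole] at this
    rw [Fintype.card_subtype, Fintype.card_subtype]
    exact_mod_cast this
  exact ⟨Equiv.ofFiberEquiv fun a => Fintype.equivOfCardEq (this a),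
    funext fun i => (Equiv.ofFiberEquiv_map _ i).symm⟩

lemma Rel.elim {ι κ : Type} [Fintype ι] [Fintype κ] [DecidableEq ι] [DecidableEq κ]
    {x : ι → R} {y : κ → R} (h : Rel (cls x) (cls y)) :
    ∃ (P : Matrix ι κ R) (Q : Matrix κ ι R), diagonal x = P * diagonal y * Q := by
  obtain ⟨ι', κ', _, _, _, _, x', y', P, Q, hx, hy, h⟩ := h
  obtain ⟨e, rfl⟩ := exists_equiv hx.symm
  obtain ⟨e', rfl⟩ := exists_equiv hy.symm
  refine ⟨P.submatrix e e', Q.submatrix e' e, ?_⟩
  rw [← submatrix_diagonal_equiv, ← submatrix_diagonal_equiv, submatrix_mul_equiv,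
    submatrix_mul_equiv, h]

lemma Rel.trans {g h k : R →₀ ℤ} (h1 : Rel g h) (h2 : Rel h k) : Rel g k := by
  obtain ⟨ι, κ, _, _, _, _, x, y, P, Q, rfl, rfl, e1⟩ := h1
  obtain ⟨_, κ', _, _, _, _, _, z, _, _, _, rfl, _⟩ := id h2
  obtain ⟨P', Q', e2⟩ := h2.elim
  exact .intro x z (P * P') (Q' * Q) rfl rfl (by rw [e1, e2]; simp only [Matrix.mul_assoc])

lemma Rel.add {g h g' h' : R →₀ ℤ} (h1 : Rel g h) (h2 : Rel g' h') : Rel (g + g') (h + h') := by
  obtain ⟨ι, κ, _, _, _, _, x, y, P, Q, rfl, rfl, e1⟩ := h1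
  obtain ⟨ι', κ', _, _, _, _, x', y', P', Q', rfl, rfl, e2⟩ := h2
  refine .intro (Sum.elim x x') (Sum.elim y y') (fromBlocks P 0 0 P') (fromBlocks Q 0 0 Q')
    (by simp [cls]) (by simp [cls]) ?_
  rw [← fromBlocks_diagonal, ← fromBlocks_diagonal, e1, e2, fromBlocks_multiply,
    fromBlocks_multiply]
  simp

lemma rel_refl {ι : Type} [Fintype ι] (x : ι → R) : Rel (cls x) (cls x) := by
  classical exact .intro x x 1 1 rfl rfl (by simp)

lemma rel_zero {ι : Type} [Fintype ι] (x : ι → R) : Rel 0 (cls x) := by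
  classical
  exact .intro (ι := Empty) Empty.elim x 0 0 (by simp [cls]) rfl (Subsingleton.elim _ _)

lemma rel_one {ι : Type} [Fintype ι] (x : ι → R) :
    Rel (cls x) (Fintype.card ι • Finsupp.single 1 1) := by
  classical
  exact .intro x (fun _ => 1) (diagonal x) 1 rfl (by simp [cls]) (by simp)

omit [Ring R] in
lemma cls_const (n : ℕ) (a : R) : cls (fun _ : Fin n => a) = n • Finsupp.single a 1 := by
  simp [cls]

/-- a rank function -/
structure IsRank (f : R → ℝ) : Prop where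
  nonneg : ∀ x, 0 ≤ f x
  one : f 1 = 1
  mul : ∀ p x q, f (p * x * q) ≤ f x
  add : ∀ x y, f (x + y) ≤ f x + f y
  orth : ∀ p q p' q' z, p * z * q' = 0 → p' * z * q = 0 → f (p * z * q) + f (p' * z * q') ≤ f z

theorem exists_rank [RankCondition R] : ∃ f : R → ℝ, IsRank f := by
  let C : AddSubmonoid (R →₀ ℤ) :=
    { carrier := {g | ∃ a b, Rel a b ∧ g = b - a}
      zero_mem' := ⟨0, 0, by simpa [cls] using rel_zero (R := R) (ι := Empty) Empty.elim, by simp⟩
      add_mem' := by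
        rintro _ _ ⟨a, b, h, rfl⟩ ⟨a', b', h', rfl⟩
        exact ⟨_, _, h.add h', by abel⟩ }
  have c1 : ∀ a : R, cls (fun _ : Fin 1 => a) = Finsupp.single a 1 := fun a => by simp [cls]
  have c2 : ∀ a b : R, cls ![a, b] = Finsupp.single a 1 + Finsupp.single b 1 := fun a b => by
    simp [cls]
  have pos : ∀ a : R, Finsupp.single a (1 : ℤ) ∈ C := fun a =>
    ⟨0, _, c1 a ▸ rel_zero _, by simp⟩
  have le1 : ∀ a : R, Finsupp.single 1 1 - Finsupp.single a (1 : ℤ) ∈ C := fun a =>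
    ⟨_, _, by simpa [c1] using rel_one (fun _ : Fin 1 => a), rfl⟩
  obtain ⟨F, hF, hF1⟩ := exists_state C (Finsupp.single 1 1) (by
    intro g
    induction g using Finsupp.induction_linear with
    | zero => exact ⟨0, by simp⟩
    | add g g' hg hg' =>
      obtain ⟨n, hn⟩ := hg
      obtain ⟨n', hn'⟩ := hg'
      exact ⟨n + n', by convert C.add_mem hn hn' using 1; module⟩
    | single a m =>
      have e : Finsupp.single a m = m • Finsupp.single a (1 : ℤ) := by simp
      obtain ⟨n, rfl | rfl⟩ := Int.eq_nat_or_neg m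
      · exact ⟨0, by rw [e]; simpa using C.nsmul_mem (pos a) n⟩
      · exact ⟨n, by rw [e]; convert C.nsmul_mem (le1 a) n using 1; module⟩) (by
    rintro n hn ⟨a, b, h, e⟩
    obtain rfl : a = b + n • Finsupp.single 1 1 := by
      rw [← neg_neg (n • _), e]; abel
    obtain ⟨_, κ, _, _, _, _, _, y, _, _, _, rfl, _⟩ := id h
    have h1 : ∀ m : ℕ, Rel (cls y + (m * n) • Finsupp.single 1 1) (cls y) := by
      intro m
      induction m with
      | zero => simpa using rel_refl y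
      | succ m ih =>
        have := (h.add (cls_const (m * n) (1 : R) ▸ rel_refl fun _ : Fin (m * n) => (1 : R))).trans
          ih
        convert this using 1
        rw [add_mul, add_smul, one_mul]; abel
    have h2 := ((rel_zero y).add (rel_refl fun _ : Fin ((Fintype.card κ + 1) * n) => (1 : R)))
    rw [zero_add] at h2
    nth_rewrite 2 [cls_const] at h2
    have h3 := (h2.trans (h1 _)).trans (rel_one y)
    rw [← cls_const] at h3
    obtain ⟨P, Q, e⟩ := h3.elim
    have := rankCondition_iff_matrix.1 ‹_› _ _ Q P (by simpa using e.symm)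
    nlinarith)
  have mono : ∀ a b, Rel a b → F a ≤ F b := fun a b h => by
    have := hF _ ⟨a, b, h, rfl⟩
    rw [map_sub] at this; linarith
  refine ⟨fun a => F (Finsupp.single a 1), fun a => hF _ (pos a), hF1, fun p x q => ?_,
    fun x y => ?_, fun p q p' q' z h1 h2 => ?_⟩
  · refine mono _ _ (.intro _ _ !![p] !![q] (c1 _) (c1 _) ?_)
    ext i j; fin_cases i; fin_cases j; simp [mul_apply]
  · rw [← map_add]
    refine mono _ _ (.intro _ _ !![1, 1] !![1; 1] (c1 _) (c2 _ _) ?_)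
    ext i j; fin_cases i; fin_cases j; simp [mul_apply, vecMul_diagonal]
  · rw [← map_add]
    refine mono _ _ (.intro _ _ !![p; p'] !![q, q'] (c2 _ _) (c1 _) ?_)
    ext i j; fin_cases i <;> fin_cases j <;> simp [mul_apply, h1, h2]

end rank

end Crest.Agent.H3Q
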